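import Vale.Agent.P166.Main.Defs
import Vale.Agent.P166.Casc.Defs
import Mathlib.Analysis.Calculus.BumpFunction.Convolution
import Mathlib.Analysis.Calculus.BumpFunction.FiniteDimension
import Mathlib.Analysis.Calculus.ContDiff.Convolution
import Mathlib.Analysis.Calculus.FDeriv.Symmetric

/-!
P166: uniformly continuous bounded potentials are uniform limits of smooth ones, and the free
energy and the variational value move by at most the uniform distance of the potentials.
-/

open MeasureTheory Filter Topology Finset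
open scoped Convolution ContDiff

namespace Vale.Agent.P166.Main

open Vale.Agent.P166 Vale.Agent.P166.Pen Vale.Agent.P166.Formula
open Vale.Agent.P157.Casc (casc gaus mlev grid_mlev)
open Vale.Agent.P150.Fast.Dom (arrMap)

variable {d : ℕ}

section Mollify

/-- The mollified potential. -/
noncomputable def mol (φ f : (Fin d → ℝ) → ℝ) : (Fin d → ℝ) → ℝ :=
  φ ⋆[ContinuousLinearMap.lsmul ℝ ℝ, volume] f

/-- A partial derivative of a kernel. -/
noncomputable def pdk (k : Fin d) (φ : (Fin d → ℝ) → ℝ) (x : Fin d → ℝ) : ℝ :=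
  fderiv ℝ φ x (Pi.single k 1)

variable {φ f : (Fin d → ℝ) → ℝ}

theorem smooth_pdk (hφ : ContDiff ℝ ∞ φ) (k : Fin d) : ContDiff ℝ ∞ (pdk k φ) :=
  (hφ.fderiv_right (by simp)).clm_apply contDiff_const

theorem compact_pdk (hc : HasCompactSupport φ) (k : Fin d) : HasCompactSupport (pdk k φ) :=
  hc.fderiv_apply ℝ _

theorem pdk_comm (hφ : ContDiff ℝ ∞ φ) (k l : Fin d) (x : Fin d → ℝ) :
    pdk k (pdk l φ) x = pdk l (pdk k φ) x := by
  have h2 : Differentiable ℝ (fderiv ℝ φ) :=
    ((hφ.fderiv_right (m := ∞) (by simp))).differentiable (by simp)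
  have e : ∀ (v w : Fin d → ℝ), fderiv ℝ (fun y => fderiv ℝ φ y v) x w =
      fderiv ℝ (fderiv ℝ φ) x w v := fun v w => by
    rw [fderiv_clm_apply (h2 x) (differentiableAt_const v)]
    simp
  unfold pdk
  rw [e, e]
  refine (hφ.contDiffAt.isSymmSndFDerivAt ?_).eq _ _
  rw [minSmoothness_of_isRCLikeNormedField]
  exact WithTop.coe_le_coe.2 le_top

theorem continuous_mol (hc : HasCompactSupport φ) (hφ : ContDiff ℝ ∞ φ) (hf : Continuous f) :
    Continuous (mol φ f) :=
  hc.continuous_convolution_left _ hφ.continuous hf.locallyIntegrable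

theorem hasDerivAt_mol (hc : HasCompactSupport φ) (hφ : ContDiff ℝ ∞ φ) (hf : Continuous f)
    (k : Fin d) (y : Fin d → ℝ) :
    HasDerivAt (fun z => mol φ f (Function.update y k z)) (mol (pdk k φ) f y) (y k) := by
  have hli := hf.locallyIntegrable (μ := (volume : Measure (Fin d → ℝ)))
  have h : HasFDerivAt (mol φ f)
      ((fderiv ℝ φ ⋆[(ContinuousLinearMap.lsmul ℝ ℝ).precompL (Fin d → ℝ), volume] f) y) y :=
    hc.hasFDerivAt_convolution_left _ (hφ.of_le (by simp)) hli y
  have hd := h.comp_hasDerivAt_of_eq (y k) (hasDerivAt_update y k (y k))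
    (Function.update_eq_self k y).symm
  have e : (fderiv ℝ φ ⋆[(ContinuousLinearMap.lsmul ℝ ℝ).precompL (Fin d → ℝ), volume] f) y
      (Pi.single k 1) = mol (pdk k φ) f y := by
    have hint := (hc.fderiv (𝕜 := ℝ)).convolutionExists_left
      ((ContinuousLinearMap.lsmul ℝ ℝ).precompL (Fin d → ℝ))
      (hφ.continuous_fderiv (by simp)) hli y
    simp only [mol, convolution_def, pdk]
    rw [ContinuousLinearMap.integral_apply hint]
    rfl
  rwa [e] at hd

theorem abs_mol_le (hc : HasCompactSupport φ) (hφ : Continuous φ) {b : ℝ} (hb : ∀ y, |f y| ≤ b)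
    (y : Fin d → ℝ) : |mol φ f y| ≤ b * ∫ x, |φ x| := by
  rw [← integral_const_mul]
  simp only [mol, convolution_def]
  refine (Real.norm_eq_abs _).symm.trans_le (norm_integral_le_of_norm_le
    ((hφ.integrable_of_hasCompactSupport (μ := volume) hc).abs.const_mul b) (ae_of_all _ fun x => ?_))
  simp only [ContinuousLinearMap.lsmul_apply, smul_eq_mul, norm_mul, Real.norm_eq_abs]
  rw [mul_comm]
  exact mul_le_mul_of_nonneg_right (hb _) (abs_nonneg _)

/-- A uniformly continuous bounded potential is close to a smooth one. -/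
theorem exists_vpot (hu : UniformContinuous f) {b : ℝ} (hb : ∀ y, |f y| ≤ b) {ε : ℝ} (hε : 0 < ε) :
    ∃ P : Casc.VPot d, (∀ k k' y, P.h k k' y = P.h k' k y) ∧ ∀ y, |P.f y - f y| ≤ ε := by
  obtain ⟨δ, hδ, hδf⟩ := Metric.uniformContinuous_iff.1 hu ε hε
  let ψ : ContDiffBump (0 : Fin d → ℝ) := ⟨δ / 2, δ, by linarith, by linarith⟩
  set φ : (Fin d → ℝ) → ℝ := ψ.normed volume
  have hs : ContDiff ℝ ∞ φ := ψ.contDiff_normed
  have hc : HasCompactSupport φ := ψ.hasCompactSupport_normed
  have hf := hu.continuous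
  have hb0 : 0 ≤ b := (abs_nonneg _).trans (hb 0)
  have hpos : ∀ χ : (Fin d → ℝ) → ℝ, 0 ≤ ∫ x, |χ x| := fun χ =>
    integral_nonneg fun x => abs_nonneg _
  have hnorm : ∫ x, |φ x| = 1 := by
    rw [integral_congr_ae (ae_of_all _ fun x => abs_of_nonneg (ψ.nonneg_normed x))]
    exact ψ.integral_normed
  refine ⟨
    { f := mol φ f
      g := fun k => mol (pdk k φ) f
      h := fun k l => mol (pdk l (pdk k φ)) f
      e := fun k l j => mol (pdk j (pdk l (pdk k φ))) f
      bF := b
      b1 := b * ∑ k, ∫ x, |pdk k φ x|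
      b2 := b * ∑ k, ∑ l, ∫ x, |pdk l (pdk k φ) x|
      b3 := b * ∑ k, ∑ l, ∑ j, ∫ x, |pdk j (pdk l (pdk k φ)) x|
      d1 := fun k y => hasDerivAt_mol hc hs hf k y
      d2 := fun k l y => hasDerivAt_mol (compact_pdk hc k) (smooth_pdk hs k) hf l y
      d3 := fun k l j y => hasDerivAt_mol (compact_pdk (compact_pdk hc k) l)
        (smooth_pdk (smooth_pdk hs k) l) hf j y
      cf := continuous_mol hc hs hf
      cg := fun k => continuous_mol (compact_pdk hc k) (smooth_pdk hs k) hf
      ch := fun k l => continuous_mol (compact_pdk (compact_pdk hc k) l)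
        (smooth_pdk (smooth_pdk hs k) l) hf
      ce := fun k l j => continuous_mol (compact_pdk (compact_pdk (compact_pdk hc k) l) j)
        (smooth_pdk (smooth_pdk (smooth_pdk hs k) l) j) hf
      hF := fun y => (abs_mol_le hc hs.continuous hb y).trans_eq (by rw [hnorm, mul_one])
      h1 := fun k y => (abs_mol_le (compact_pdk hc k) (smooth_pdk hs k).continuous hb y).trans
        (mul_le_mul_of_nonneg_left (Finset.single_le_sum (f := fun k => ∫ x, |pdk k φ x|)
          (fun k _ => hpos _) (mem_univ k)) hb0)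
      h2 := fun k l y => (abs_mol_le (compact_pdk (compact_pdk hc k) l)
        (smooth_pdk (smooth_pdk hs k) l).continuous hb y).trans (mul_le_mul_of_nonneg_left
          ((Finset.single_le_sum (f := fun l => ∫ x, |pdk l (pdk k φ) x|)
            (fun l _ => hpos _) (mem_univ l)).trans
          (Finset.single_le_sum (f := fun k => ∑ l, ∫ x, |pdk l (pdk k φ) x|)
            (fun k _ => Finset.sum_nonneg fun l _ => hpos _) (mem_univ k))) hb0)
      h3 := fun k l j y => (abs_mol_le (compact_pdk (compact_pdk (compact_pdk hc k) l) j)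
        (smooth_pdk (smooth_pdk (smooth_pdk hs k) l) j).continuous hb y).trans
          (mul_le_mul_of_nonneg_left
            (((Finset.single_le_sum (f := fun j => ∫ x, |pdk j (pdk l (pdk k φ)) x|)
              (fun j _ => hpos _) (mem_univ j)).trans
            (Finset.single_le_sum (f := fun l => ∑ j, ∫ x, |pdk j (pdk l (pdk k φ)) x|)
              (fun l _ => Finset.sum_nonneg fun j _ => hpos _) (mem_univ l))).trans
            (Finset.single_le_sum (f := fun k => ∑ l, ∑ j, ∫ x, |pdk j (pdk l (pdk k φ)) x|)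
              (fun k _ => Finset.sum_nonneg fun l _ => Finset.sum_nonneg fun j _ => hpos _)
              (mem_univ k))) hb0) },
    fun k k' y => by
      show mol (pdk k' (pdk k φ)) f y = mol (pdk k (pdk k' φ)) f y
      rw [funext (pdk_comm hs k' k)],
    fun y => ?_⟩
  rw [← Real.dist_eq]
  exact ψ.dist_normed_convolution_le hf.aestronglyMeasurable fun x hx =>
    (hδf (Metric.mem_ball.1 hx)).le

end Mollify

section Stability

variable {f f' : (Fin d → ℝ) → ℝ} {b ε τ : ℝ} {γ : Fin d → ℝ}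

/-- The free energy moves by at most the distance of the potentials. -/
theorem free_le_add (hf : Continuous f) (hf' : Continuous f') (hb : ∀ y, |f y| ≤ b)
    (hb' : ∀ y, |f' y| ≤ b) (h : ∀ y, f y ≤ f' y + ε) {N : ℕ} (hN : 0 < N) :
    Nested.free τ f γ N ≤ Nested.free τ f' γ N + ε := by
  have hN' : (0 : ℝ) < N := Nat.cast_pos.2 hN
  have hint : ∀ {u : (Fin d → ℝ) → ℝ}, Continuous u → (∀ y, |u y| ≤ b) →
      ∀ G : Fin N → Fin N → ℝ, Integrable (fun w => Real.exp (ene τ u γ G w)) (spinLaw d N) :=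
    fun hu hub G => integrable_exp_energy (measurable_eneG τ hu γ G) (abs_ene_le hub γ G)
  have hlog : ∀ {u : (Fin d → ℝ) → ℝ}, Continuous u → (∀ y, |u y| ≤ b) →
      Integrable (fun G => Real.log (∫ w, Real.exp (ene τ u γ G w) ∂spinLaw d N)) (rowsLaw N) :=
    fun hu hub => (integrable_const ((N : ℝ) * b)).mono'
      (Measurable.log ((Real.continuous_exp.comp (measurable_ene (N := N) τ hu γ)).stronglyMeasurable
        |>.integral_prod_right'.measurable)).aestronglyMeasurable (ae_of_all _ fun G =>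
          (Real.norm_eq_abs _).trans_le (abs_log_integral_exp (measurable_eneG τ hu γ G)
            (abs_ene_le hub γ G)).2.2)
  rw [free_rows τ hf, free_rows τ hf', one_div_mul_eq_div, one_div_mul_eq_div, div_le_iff₀ hN',
    add_mul, div_mul_cancel₀ _ hN'.ne']
  refine (integral_mono (hlog hf hb) ((hlog hf' hb').fun_add (integrable_const (ε * (N : ℝ))))
    fun G => ?_).trans_eq (by rw [integral_add (hlog hf' hb') (integrable_const _)]; simp)
  have hene : ∀ w, ene τ f γ G w ≤ ene τ f' γ G w + ε * N := fun w => by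
    refine (Finset.sum_le_sum fun i _ => h _).trans_eq ?_
    rw [Finset.sum_add_distrib]
    simp [ene, mul_comm]
  have hpos : ∀ {u : (Fin d → ℝ) → ℝ}, Continuous u → (∀ y, |u y| ≤ b) →
      0 < ∫ w, Real.exp (ene τ u γ G w) ∂spinLaw d N := fun hu hub =>
    (abs_log_integral_exp (measurable_eneG τ hu γ G) (abs_ene_le hub γ G)).2.1
  refine (Real.log_le_log (hpos hf hb) (integral_mono (hint hf hb G)
    ((hint hf' hb' G).const_mul (Real.exp (ε * N))) fun w => ?_)).trans_eq ?_
  · rw [← Real.exp_add, Real.exp_le_exp]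
    linarith [hene w]
  · rw [integral_const_mul, Real.log_mul (Real.exp_pos _).ne' (hpos hf' hb').ne', Real.log_exp,
      add_comm]

/-- The value of a row moves by at most the distance of the potentials. -/
theorem rowVal_le_add (hf : Measurable f) (hf' : Measurable f') (hb : ∀ y, |f y| ≤ b)
    (hb' : ∀ y, |f' y| ≤ b) (h : ∀ y, f y ≤ f' y + ε) (K : ℕ) (D : Matrix (Fin d) (Fin d) ℝ)
    (q : ℕ → Matrix (Fin d) (Fin d) ℝ) : rowVal f K D q ≤ rowVal f' K D q + ε := by
  set S : Fin K → Fin d → Fin d → ℝ := fun l => facOf (q (l.val + 1) - q l.val)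
  set T := facOf (D - q K)
  set A0 := facOf (q 0)
  have hleaf : ∀ x, rowLeaf f T x ≤ rowLeaf f' T x + ε := fun x => by
    have h1 := abs_log_integral_exp (μ := gaus (Fin d))
      (hf.comp (measurable_const_add x |>.comp (arrMap T).continuous.measurable)) fun _ => hb _
    have h2 := abs_log_integral_exp (μ := gaus (Fin d))
      (hf'.comp (measurable_const_add x |>.comp (arrMap T).continuous.measurable)) fun _ => hb' _
    refine (Real.log_le_log h1.2.1 (integral_mono h1.1 (h2.1.const_mul (Real.exp ε))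
      fun g => ?_)).trans_eq ?_
    · rw [← Real.exp_add, Real.exp_le_exp, add_comm ε]
      exact h _
    · rw [integral_const_mul, Real.log_mul (Real.exp_pos _).ne' h2.2.1.ne', Real.log_exp, add_comm]
      rfl
  have hm : ∀ {u : (Fin d → ℝ) → ℝ}, Measurable u → ∀ z : Fin d → ℝ,
      Measurable fun y : Fin K → Fin d → ℝ => rowLeaf u T (rowFld S (arrMap A0 z) y) :=
    fun hu z => (measurable_rowLeaf hu T).comp
      ((continuous_rowFld S).measurable.comp measurable_prodMk_left)
  have hi : ∀ {u : (Fin d → ℝ) → ℝ}, Measurable u → (∀ y, |u y| ≤ b) → ∀ z : Fin d → ℝ,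
      Integrable (fun y : Fin K → Fin d → ℝ => Real.exp (rowLeaf u T (rowFld S (arrMap A0 z) y)))
        (Measure.pi fun _ => gaus (Fin d)) := fun hu hub z =>
    (integrable_const (Real.exp b)).mono' (hm hu z).exp.aestronglyMeasurable (ae_of_all _ fun y => by
      rw [Real.norm_eq_abs, Real.abs_exp]
      exact Real.exp_le_exp.2 (le_of_abs_le (abs_rowLeaf_le hu hub T _)))
  have hI : ∀ {u : (Fin d → ℝ) → ℝ}, Measurable u → (∀ y, |u y| ≤ b) →
      Integrable (fun z => casc (gaus (Fin d)) K (mlev K) fun y =>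
        rowLeaf u T (rowFld S (arrMap A0 z) y)) (gaus (Fin d)) := fun hu hub =>
    (integrable_const b).mono' (((measurable_casc_fld S (mlev K) (measurable_rowLeaf hu T))).comp
      (arrMap A0).continuous.measurable).aestronglyMeasurable (ae_of_all _ fun z =>
        (Real.norm_eq_abs _).trans_le (P157.Casc.casc_bdd _ _ (grid_mlev K).pos (hm hu z)
          fun y => abs_rowLeaf_le hu hub T _))
  refine (integral_mono (hI hf hb) ((hI hf' hb').fun_add (integrable_const ε)) fun z =>
    P157.Casc.casc_le_add ε K (grid_mlev K) (hm hf z) (hm hf' z) (hi hf hb z) (hi hf' hb' z)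
      fun y => hleaf _).trans_eq ?_
  rw [integral_add (hI hf' hb') (integrable_const _)]
  simp [rowVal, rowCasc, S, T, A0]

/-- The variational value moves by at most the distance of the potentials. -/
theorem gVal_le_add (hγ : ∀ k, 0 < γ k ∧ γ k ≤ 1) {κ L : ℝ} (hκ : 0 < κ) {dd : OIdx d → ℝ}
    (hd : GoodCentre γ κ L dd) (hf : Measurable f) (hf' : Measurable f') (hb : ∀ y, |f y| ≤ b)
    (hb' : ∀ y, |f' y| ≤ b) (h : ∀ y, f y ≤ f' y + ε) :
    gVal τ f γ 1 dd ≤ gVal τ f' γ 1 dd + ε := by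
  rw [← sub_le_iff_le_add]
  refine le_csInf (valSet_nonempty hγ hκ hd) ?_
  rintro _ ⟨r, q, hq, rfl⟩
  rw [sub_le_iff_le_add]
  refine (csInf_le (bddBelow_valSet hγ hκ hd zero_le_one hf hb) ⟨r, q, hq, rfl⟩).trans ?_
  simp only [pathVal, one_mul]
  linarith [rowVal_le_add hf hf' hb hb' h r (dTot dd) (qTot γ q)]

end Stability

/-- The variational formula for smooth symmetric potentials gives it for uniformly continuous
ones. -/
theorem formula_of_vpot {τ : ℝ} {γ : Fin d → ℝ} (hγ : ∀ k, 0 < γ k ∧ γ k ≤ 1)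
    (hP : ∀ P : Casc.VPot d, (∀ k k' y, P.h k k' y = P.h k' k y) →
      ∃ lim, Tendsto (Nested.free τ P.f γ) atTop (𝓝 lim) ∧
        IsLUB (gVal τ P.f γ 1 '' centres γ) lim)
    {f : (Fin d → ℝ) → ℝ} (hu : UniformContinuous f) {b : ℝ} (hb : ∀ y, |f y| ≤ b) :
    ∃ lim, Tendsto (Nested.free τ f γ) atTop (𝓝 lim) ∧
      IsLUB (gVal τ f γ 1 '' centres γ) lim := by
  have hf := hu.continuous
  have key : ∀ ε > (0 : ℝ), ∃ P : Casc.VPot d, ∃ l, Tendsto (Nested.free τ P.f γ) atTop (𝓝 l) ∧
      IsLUB (gVal τ P.f γ 1 '' centres γ) l ∧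
      (∀ N : ℕ, 0 < N → |Nested.free τ P.f γ N - Nested.free τ f γ N| ≤ ε) ∧
      ∀ dd ∈ centres γ, |gVal τ P.f γ 1 dd - gVal τ f γ 1 dd| ≤ ε := by
    intro ε hε
    obtain ⟨P, hs, hc⟩ := exists_vpot hu hb hε
    obtain ⟨l, h1, h2⟩ := hP P hs
    have hb1 : ∀ y, |P.f y| ≤ b + ε := fun y => by
      linarith [abs_sub_abs_le_abs_sub (P.f y) (f y), hc y, hb y]
    have hb2 : ∀ y, |f y| ≤ b + ε := fun y => (hb y).trans (by linarith)
    have h3 : ∀ y, P.f y ≤ f y + ε := fun y => by linarith [(abs_le.1 (hc y)).2]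
    have h4 : ∀ y, f y ≤ P.f y + ε := fun y => by linarith [(abs_le.1 (hc y)).1]
    refine ⟨P, l, h1, h2, fun N hN => abs_le.2 ⟨?_, ?_⟩, ?_⟩
    · linarith [free_le_add (τ := τ) (γ := γ) hf P.cf hb2 hb1 h4 hN]
    · linarith [free_le_add (τ := τ) (γ := γ) P.cf hf hb1 hb2 h3 hN]
    · rintro dd ⟨κ, L, hκ, hd⟩
      refine abs_le.2 ⟨?_, ?_⟩
      · linarith [gVal_le_add (τ := τ) hγ hκ hd hf.measurable P.cf.measurable hb2 hb1 h4]
      · linarith [gVal_le_add (τ := τ) hγ hκ hd P.cf.measurable hf.measurable hb1 hb2 h3]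
  have hcau : CauchySeq (Nested.free τ f γ) := by
    refine Metric.cauchySeq_iff.2 fun ε hε => ?_
    obtain ⟨P, l, hl, -, hfr, -⟩ := key (ε / 4) (by linarith)
    obtain ⟨N0, hN0⟩ := Metric.cauchySeq_iff.1 hl.cauchySeq (ε / 4) (by linarith)
    refine ⟨max N0 1, fun m hm n hn => ?_⟩
    have h3 := hN0 m (le_of_max_le_left hm) n (le_of_max_le_left hn)
    have h1 := hfr m (le_of_max_le_right hm)
    have h2 := hfr n (le_of_max_le_right hn)
    rw [Real.dist_eq] at h3 ⊢
    obtain ⟨a1, a2⟩ := abs_le.1 h1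
    obtain ⟨b1, b2⟩ := abs_le.1 h2
    obtain ⟨c1, c2⟩ := abs_lt.1 h3
    exact abs_lt.2 ⟨by linarith, by linarith⟩
  obtain ⟨lim, hlim⟩ := cauchySeq_tendsto_of_complete hcau
  refine ⟨lim, hlim, ?_, fun u hu' => le_of_forall_pos_le_add fun ε hε => ?_⟩
  · rintro _ ⟨dd, hdd, rfl⟩
    refine le_of_forall_pos_le_add fun ε hε => ?_
    obtain ⟨P, l, hl, hlub, hfr, hg⟩ := key (ε / 2) (by linarith)
    have h1 : |l - lim| ≤ ε / 2 :=
      le_of_tendsto (hl.sub hlim).abs ((eventually_gt_atTop 0).mono hfr)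
    have h2 := hlub.1 ⟨dd, hdd, rfl⟩
    linarith [(abs_le.1 h1).2, (abs_le.1 (hg dd hdd)).1]
  · obtain ⟨P, l, hl, hlub, hfr, hg⟩ := key (ε / 2) (by linarith)
    have h1 : |l - lim| ≤ ε / 2 :=
      le_of_tendsto (hl.sub hlim).abs ((eventually_gt_atTop 0).mono hfr)
    have h2 : l ≤ u + ε / 2 := hlub.2 <| by
      rintro _ ⟨dd, hdd, rfl⟩
      linarith [hu' ⟨dd, hdd, rfl⟩, (abs_le.1 (hg dd hdd)).2]
    linarith [(abs_le.1 h1).1]

end Vale.Agent.P166.Main
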