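import Vale.Agent.P166.Formula.Value
import Vale.Agent.P166.Pen.Engine

/-!
P166: the variational formula of the limiting pressure, on grids of the spectral law.
-/

open MeasureTheory Finset Filter Topology

namespace Vale.Agent.P166.Main

open Vale.Agent.P166 Vale.Agent.P166.Pen Vale.Agent.P166.Formula

variable {d : ℕ}

/-- The definite self-overlaps of the types. -/
def centres (γ : Fin d → ℝ) : Set (OIdx d → ℝ) :=
  {dd | ∃ κ L, 0 < κ ∧ GoodCentre γ κ L dd}

/-- The supremum over the self-overlaps of the infimum over the paths. -/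
noncomputable def supInf (τ : ℝ) (f : (Fin d → ℝ) → ℝ) (γ : Fin d → ℝ) : ℝ :=
  sSup (gVal τ f γ 1 '' centres γ)

/-- The free energies of bounded uniformly continuous potentials tend to the variational value. -/
def FreeFormula : Prop :=
  ∀ (d : ℕ) (τ : ℝ) (γ : Fin d → ℝ) (f : (Fin d → ℝ) → ℝ) (b : ℝ), 0 < d → 0 < τ →
    (∀ k, γ k ∈ Set.Ioo (0 : ℝ) 1) → UniformContinuous f → (∀ y, |f y| ≤ b) →
      ∃ lim, Tendsto (Nested.free τ f γ) atTop (𝓝 lim) ∧
        IsLUB (gVal τ f γ 1 '' centres γ) lim

/-- The step of the grid of `n + 1` steps above the support in `[a, b]`. -/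
noncomputable def mesh (a b : ℝ) (n : ℕ) : ℝ := (b - a + 1) / (n + 1)

/-- The mass of the law above a grid point. -/
noncomputable def tailAt (μ : Measure ℝ) (a b : ℝ) (n k : ℕ) : ℝ :=
  μ.real (Set.Ioi (a + (k : ℝ) * mesh a b n))

/-- The grid points with mass on both sides. -/
noncomputable def active (μ : Measure ℝ) (a b : ℝ) (n : ℕ) : Finset ℕ := by
  classical exact (range (n + 1)).filter fun k => 0 < tailAt μ a b n k ∧ tailAt μ a b n k < 1

/-- The number of grid points below the whole law. -/
noncomputable def full (μ : Measure ℝ) (a b : ℝ) (n : ℕ) : ℕ := by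
  classical exact ((range (n + 1)).filter fun k => tailAt μ a b n k = 1).card

/-- The fractions of the nested projections: the masses above the active grid points. -/
noncomputable def frac (μ : Measure ℝ) (a b : ℝ) (n : ℕ) : Fin (active μ a b n).card → ℝ :=
  fun k => tailAt μ a b n ((active μ a b n).orderEmbOfFin rfl k)

/-- The value of the grid at prior variance `τ` and depth of cut `R`: the shift, plus the
variational value of the coupled potential, minus those of the single quadratic potentials. -/
noncomputable def psi (μ : Measure ℝ) (a b β : ℝ) (n : ℕ) (τ R : ℝ) : ℝ :=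
  let c : Fin (active μ a b n).card → ℝ := fun _ => β * mesh a b n
  β * (a + mesh a b n * full μ a b n) / 2 +
      supInf τ (trunc ((∑ k, c k) / 2 + ∑ k, c k ^ 2) R (Nested.pot c)) (frac μ a b n) -
    ∑ k, supInf τ (trunc 0 R (Nested.quad (c k))) fun _ : Fin 1 => frac μ a b n k

end Vale.Agent.P166.Main
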