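import Vale.Agent.P166.Main.Flat

/-!
P166: the closed value of the quadratic potential of one component under a flat prior. Along a path
the value is a weighted sum of tangent defects of `g log u - log (1 + c g u)`, which is concave below
its maximum, so no path beats the zero path there.
-/

open MeasureTheory ProbabilityTheory Finset Real
open Matrix hiding comp

namespace Vale.Agent.P166.Main

open Vale.Agent.P166 Vale.Agent.P166.Pen Vale.Agent.P166.Formula
open Vale.Agent.P166.Casc (comp comp_mem)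
open Vale.Agent.P157.Casc (casc gaus mlev grid_mlev)
open Vale.Agent.P150.Fast.Dom (arrMap arrMap_apply)

variable {c g : ℝ} {r : ℕ}

/-- A weighted logarithm lies below the logarithm of the weighted mean. -/
theorem mul_log_le_log {w s : ℝ} (hw : 0 ≤ w) (hw1 : w ≤ 1) (hs : 0 < s) :
    w * log s ≤ log (1 + w * (s - 1)) := by
  have h := geom_mean_le_arith_mean2_weighted hw (sub_nonneg.2 hw1) hs.le zero_le_one
    (add_sub_cancel w 1)
  rw [one_rpow, mul_one, mul_one] at h
  have h' := log_le_log (rpow_pos_of_pos hs w) h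
  rw [log_rpow hs] at h'
  exact h'.trans_eq (congrArg log (by ring))

/-- Below its maximum the profile of the quadratic value lies below its tangents. -/
theorem quad_tangent {u v : ℝ} (hc : 0 < c) (hg : 0 < g) (hu : 0 < u) (hu1 : c * (1 - g) * u ≤ 1)
    (hv : 0 < v) :
    g * log v - log (1 + c * g * v)
      ≤ g * log u - log (1 + c * g * u) + (g / u - c * g / (1 + c * g * u)) * (v - u) := by
  have hp : 0 < 1 + c * g * u := by positivity
  set w := c * g * u / (1 + c * g * u) with hw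
  set s := v / u with hs'
  have hs : 0 < s := div_pos hv hu
  have hw0 : 0 ≤ w := by positivity
  have hw1 : w ≤ 1 := (div_le_one hp).2 (by linarith)
  have hwg : w ≤ g := by
    rw [hw, div_le_iff₀ hp]
    have := mul_le_mul_of_nonneg_left hu1 hg.le
    linarith
  have e1 : 1 + w * (s - 1) = (1 + c * g * v) / (1 + c * g * u) := by
    rw [hw, hs']
    field_simp
    ring
  have e2 : (g / u - c * g / (1 + c * g * u)) * (v - u) = (g - w) * (s - 1) := by
    rw [hw, hs']
    field_simp
  have h1 := mul_log_le_log hw0 hw1 hs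
  rw [e1, log_div (by positivity) hp.ne'] at h1
  have h2 := mul_le_mul_of_nonneg_left (log_le_sub_one_of_pos hs) (sub_nonneg.2 hwg)
  rw [hs', log_div hv.ne' hu.ne'] at h1 h2
  rw [e2]
  linarith

/-- The profile with the logarithm linearised lies below all its tangents. -/
theorem lin_tangent {u v : ℝ} (hg : 0 ≤ g) (hu : 0 < u) (hv : 0 < v) :
    g * log v - c * g * v ≤ g * log u - c * g * u + (g / u - c * g) * (v - u) := by
  have h := mul_le_mul_of_nonneg_left (log_le_sub_one_of_pos (div_pos hv hu)) hg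
  rw [log_div hv.ne' hu.ne'] at h
  have e : (g / u - c * g) * (v - u) = g * (v / u - 1) - c * g * v + c * g * u := by
    field_simp
    ring
  rw [e]
  linarith

/-- A scalar overlap path `a` below `x` with its tails `U`. -/
structure Tails (m : ℕ → ℝ) (r : ℕ) (x : ℝ) (a U : ℕ → ℝ) : Prop where
  lev : ∀ l, l < r → 0 < m (l + 1) ∧ m (l + 1) ≤ 1
  pos : ∀ l, l ≤ r → 0 < U l
  start : 0 ≤ a 0
  mono : ∀ l, l < r → a l ≤ a (l + 1)
  step : ∀ l, l < r → U l = U (l + 1) + m (l + 1) * (a (l + 1) - a l)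
  top : U r = x - a r

variable {m : ℕ → ℝ} {x : ℝ} {a U : ℕ → ℝ}

theorem Tails.anti (h : Tails m r x a U) {l : ℕ} (hl : l < r) : U (l + 1) ≤ U l := by
  rw [h.step l hl]
  have := mul_nonneg (h.lev l hl).1.le (sub_nonneg.2 (h.mono l hl))
  linarith

theorem Tails.le_root (h : Tails m r x a U) : ∀ l, l ≤ r → U l ≤ U 0 := by
  intro l
  induction l with
  | zero => exact fun _ => le_rfl
  | succ l ih => exact fun hl => (h.anti hl).trans (ih (Nat.le_of_succ_le hl))

/-- The root value from the tails. -/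
theorem Tails.root_eq (h : Tails m r x a U) :
    a 0 = x - U 0 - ∑ l ∈ range r, ((m (l + 1))⁻¹ - 1) * (U l - U (l + 1)) := by
  have e : ∀ l ∈ range r, ((m (l + 1))⁻¹ - 1) * (U l - U (l + 1))
      = (a (l + 1) - a l) - (U l - U (l + 1)) := fun l hl => by
    rw [h.step l (mem_range.1 hl)]
    have := (h.lev l (mem_range.1 hl)).1.ne'
    field_simp
    ring
  rw [sum_congr rfl e, sum_sub_distrib, sum_range_sub, sum_range_sub', h.top]
  ring

theorem Tails.sum_nonneg' (h : Tails m r x a U) :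
    0 ≤ ∑ l ∈ range r, ((m (l + 1))⁻¹ - 1) * (U l - U (l + 1)) :=
  Finset.sum_nonneg fun l hl => mul_nonneg
    (sub_nonneg.2 ((one_le_inv₀ (h.lev l (mem_range.1 hl)).1).2 (h.lev l (mem_range.1 hl)).2))
    (sub_nonneg.2 (h.anti (mem_range.1 hl)))

theorem Tails.root_le (h : Tails m r x a U) : U 0 ≤ x := by
  linarith [h.root_eq, h.start, h.sum_nonneg']

/-- Along a path a profile below its tangents is at least its value at the self-overlap. -/
theorem Tails.tangent (h : Tails m r x a U) {B B' : ℝ → ℝ}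
    (hB : ∀ u v, 0 < u → u ≤ x → 0 < v → v ≤ x → B v ≤ B u + B' u * (v - u)) :
    B x ≤ -levelSum m r (fun l => B (U l)) + a 0 * B' (U 0) := by
  have h0 := h.pos 0 (Nat.zero_le r)
  have hx : 0 < x := h0.trans_le h.root_le
  have hin : ∀ l, l ≤ r → 0 < U l ∧ U l ≤ x := fun l hl =>
    ⟨h.pos l hl, (h.le_root l hl).trans h.root_le⟩
  have hd : ∀ l, l < r → B' (U 0) * (U l - U (l + 1)) ≤ B (U l) - B (U (l + 1)) := fun l hl => by
    obtain ⟨p1, q1⟩ := hin l hl.le
    obtain ⟨p2, q2⟩ := hin (l + 1) hl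
    have t1 := hB _ _ p1 q1 p2 q2
    have t2 : B' (U 0) ≤ B' (U l) := by
      rcases eq_or_lt_of_le (h.le_root l hl.le) with e | e
      · rw [e]
      · have a1 := hB _ _ p1 q1 h0 h.root_le
        have a2 := hB _ _ h0 h.root_le p1 q1
        by_contra hlt
        nlinarith [mul_pos (sub_pos.2 (not_le.1 hlt)) (sub_pos.2 e)]
    nlinarith [mul_nonneg (sub_nonneg.2 t2) (sub_nonneg.2 (h.anti hl))]
  have hs := Finset.sum_le_sum fun l (hl : l ∈ range r) => mul_le_mul_of_nonneg_left
    (hd l (mem_range.1 hl))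
    (sub_nonneg.2 ((one_le_inv₀ (h.lev l (mem_range.1 hl)).1).2 (h.lev l (mem_range.1 hl)).2))
  have e : -levelSum m r (fun l => B (U l))
      = B (U 0) + ∑ l ∈ range r, ((m (l + 1))⁻¹ - 1) * (B (U l) - B (U (l + 1))) := by
    have h1 := sum_range_sub' (fun l => B (U l)) r
    have h2 : ∑ l ∈ range r, ((m (l + 1))⁻¹ - 1) * (B (U l) - B (U (l + 1)))
        = -(∑ l ∈ range r, (m (l + 1))⁻¹ * (B (U (l + 1)) - B (U l)))
          - ∑ l ∈ range r, (B (U l) - B (U (l + 1))) := by
      rw [← sum_neg_distrib, ← sum_sub_distrib]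
      exact sum_congr rfl fun l _ => by ring
    simp only [levelSum] at *
    linarith
  have e' : ∑ l ∈ range r, ((m (l + 1))⁻¹ - 1) * (B' (U 0) * (U l - U (l + 1)))
      = B' (U 0) * (x - U 0 - a 0) := by
    rw [show x - U 0 - a 0 = ∑ l ∈ range r, ((m (l + 1))⁻¹ - 1) * (U l - U (l + 1)) by
      linarith [h.root_eq], mul_sum]
    exact sum_congr rfl fun l _ => by ring
  have := hB _ _ h0 h.root_le hx le_rfl
  rw [e'] at hs
  rw [e]
  linarith

/-- The value of a path of the profile. -/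
noncomputable def qPath (c g : ℝ) (m : ℕ → ℝ) (r : ℕ) (a U : ℕ → ℝ) : ℝ :=
  1 / 2 * (levelSum m r (fun l => log (1 + c * g * U l)) - c * g * a 0 / (1 + c * g * U 0)
    + g * (-levelSum m r (fun l => log (U l)) + a 0 / U 0 + 1))

theorem levelSum_lin (u v : ℝ) (f₁ f₂ : ℕ → ℝ) :
    levelSum m r (fun l => u * f₁ l - v * f₂ l) = u * levelSum m r f₁ - v * levelSum m r f₂ := by
  simp only [levelSum, mul_sub, sum_sub_distrib, mul_sum, mul_left_comm u, mul_left_comm v]
  ring

/-- Below the maximum no path beats the zero path. -/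
theorem qPath_ge (hc : 0 < c) (hg : 0 < g) (hg1 : g < 1) (h : Tails m r x a U)
    (hx : c * (1 - g) * x ≤ 1) :
    1 / 2 * (g * log x - log (1 + c * g * x) + g) ≤ qPath c g m r a U := by
  have ht := h.tangent (B := fun u => g * log u - 1 * log (1 + c * g * u))
    (B' := fun u => g / u - c * g / (1 + c * g * u)) fun u v hu hux hv _ => by
      simp only [one_mul]
      exact quad_tangent hc hg hu
        ((mul_le_mul_of_nonneg_left hux (mul_nonneg hc.le (by linarith))).trans hx) hv
  rw [levelSum_lin g 1 (fun l => log (U l)) fun l => log (1 + c * g * U l)] at ht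
  simp only [qPath]
  have e : a 0 * (g / U 0 - c * g / (1 + c * g * U 0))
      = g * (a 0 / U 0) - c * g * a 0 / (1 + c * g * U 0) := by ring
  linarith

/-- A lower bound at any self-overlap. -/
theorem qPath_crude (hc : 0 < c) (hg : 0 < g) (h : Tails m r x a U) :
    1 / 2 * (g * log x - c * g * x + g) ≤ qPath c g m r a U := by
  have ht := h.tangent (B := fun u => g * log u - c * g * u) (B' := fun u => g / u - c * g)
    fun u v hu _ hv _ => lin_tangent hg.le hu hv
  rw [levelSum_lin g (c * g) (fun l => log (U l)) U] at ht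
  have h0 := h.pos 0 (Nat.zero_le r)
  have hL : c * g * levelSum m r U ≤ levelSum m r fun l => log (1 + c * g * U l) := by
    have hd : ∀ u v : ℝ, 0 < v → v ≤ u →
        log (1 + c * g * u) - log (1 + c * g * v) ≤ c * g * (u - v) := fun u v hv huv => by
      have hp : 0 < 1 + c * g * v := by positivity
      have hu : 0 < 1 + c * g * u := by
        have := mul_pos (mul_pos hc hg) (hv.trans_le huv)
        linarith
      rw [← log_div hu.ne' hp.ne']
      refine (log_le_sub_one_of_pos (div_pos hu hp)).trans ?_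
      rw [div_sub_one hp.ne', div_le_iff₀ hp]
      nlinarith [mul_nonneg (mul_nonneg hc.le hg.le) (sub_nonneg.2 huv),
        mul_nonneg (mul_nonneg hc.le hg.le) hv.le]
    have htop : log (1 + c * g * U r) ≤ c * g * U r := by
      have := h.pos r le_rfl
      linarith [log_le_sub_one_of_pos (show 0 < 1 + c * g * U r by positivity)]
    simp only [levelSum, mul_sub, mul_sum]
    refine sub_le_sub (Finset.sum_le_sum fun l hl => ?_) htop
    have h1 := mul_le_mul_of_nonneg_left (hd _ _ (h.pos (l + 1) (mem_range.1 hl))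
      (h.anti (mem_range.1 hl))) (inv_nonneg.2 (h.lev l (mem_range.1 hl)).1.le)
    linarith
  have hq : c * g * a 0 / (1 + c * g * U 0) ≤ c * g * a 0 :=
    div_le_self (mul_nonneg (mul_nonneg hc.le hg.le) h.start) (by
      have := mul_pos (mul_pos hc hg) h0
      linarith)
  have e : a 0 * (g / U 0 - c * g) = g * (a 0 / U 0) - c * g * a 0 := by ring
  simp only [qPath]
  linarith

/-- One step of the recursion of a negative square. -/
theorem neg_quad_step {m κ : ℝ} (hm : 0 < m) (hκ : 0 ≤ κ) (σ h C : ℝ) :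
    m⁻¹ * log (∫ t, exp (m * (-(κ * (h + σ * t) ^ 2 / 2) + C)) ∂gaussianReal 0 1)
      = -(κ / (1 + m * κ * σ ^ 2) * h ^ 2 / 2) + C - (2 * m)⁻¹ * log (1 + m * κ * σ ^ 2) := by
  set A := m * κ * σ ^ 2 with hA
  have hA0 : 0 ≤ A := by positivity
  have hp : 0 < 1 + A := by linarith
  have key : ∀ t : ℝ, exp (m * (-(κ * (h + σ * t) ^ 2 / 2) + C))
      = exp (m * (C - κ * h ^ 2 / 2)) * exp ((-(m * κ * h * σ)) * t - A * t ^ 2 / 2) := fun t => by
    rw [← exp_add, hA]
    congr 1
    ring
  simp only [key]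
  rw [integral_const_mul, (gauss_quad_one hp _).2,
    log_mul (exp_pos _).ne' (mul_pos (inv_pos.2 (sqrt_pos.2 hp)) (exp_pos _)).ne',
    log_mul (inv_pos.2 (sqrt_pos.2 hp)).ne' (exp_pos _).ne', log_exp, log_exp, log_inv,
    log_sqrt hp.le]
  rw [hA] at hp ⊢
  field_simp
  ring

/-- The recursion with a negative square at the leaf. -/
theorem casc_neg_quad (hc : 0 ≤ c) : ∀ (K : ℕ) (m : Fin K → ℝ) (T : Fin (K + 1) → ℝ) (σ : Fin K → ℝ),
    (∀ l, 0 < m l) → (∀ l, 0 ≤ T l) →
    (∀ l : Fin K, T l.castSucc = T l.succ + m l * σ l ^ 2) → ∀ h C : ℝ,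
    casc (gaus (Fin 1)) K m (fun y =>
        -(c / (1 + c * T (Fin.last K)) * (h + ∑ l, σ l * y l 0) ^ 2 / 2) + C)
      = -(c / (1 + c * T 0) * h ^ 2 / 2) + C + ∑ l : Fin K, (2 * m l)⁻¹ *
          (log (1 + c * T l.succ) - log (1 + c * T l.castSucc)) := by
  intro K
  induction K with
  | zero => intro m T σ _ _ _ h C; simp [casc]
  | succ K ih =>
    intro m T σ hm hT hstep h C
    have hrec : ∀ x : Fin 1 → ℝ, casc (gaus (Fin 1)) K (fun l => m l.succ) (fun y =>
        -(c / (1 + c * T (Fin.last (K + 1)))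
          * (h + ∑ l, σ l * (Fin.cons x y : Fin (K + 1) → Fin 1 → ℝ) l 0) ^ 2 / 2) + C)
        = -(c / (1 + c * T 1) * (h + σ 0 * x 0) ^ 2 / 2) + (C + ∑ l : Fin K, (2 * m l.succ)⁻¹ *
            (log (1 + c * T l.succ.succ) - log (1 + c * T l.succ.castSucc))) := fun x => by
      have := ih (fun l => m l.succ) (fun l => T l.succ) (fun l => σ l.succ) (fun l => hm _)
        (fun l => hT _) (fun l => hstep l.succ) (h + σ 0 * x 0) C
      simp only [Fin.succ_zero_eq_one, Fin.succ_last] at this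
      simp only [Fin.sum_univ_succ, Fin.cons_zero, Fin.cons_succ, ← add_assoc]
      rw [this]
      simp only [← Fin.succ_castSucc, add_assoc]
    simp only [casc, hrec]
    set C' := C + ∑ l : Fin K, (2 * m l.succ)⁻¹ *
      (log (1 + c * T l.succ.succ) - log (1 + c * T l.succ.castSucc)) with hC'
    have hp1 : 0 < 1 + c * T 1 := by have := mul_nonneg hc (hT 1); linarith
    have hp0 : 0 < 1 + c * T 0 := by have := mul_nonneg hc (hT 0); linarith
    have hs : T 0 = T 1 + m 0 * σ 0 ^ 2 := by simpa using hstep 0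
    rw [gaus, integral_comp_eval (μ := fun _ : Fin 1 => gaussianReal 0 1) (i := 0)
      (f := fun t => exp (m 0 * (-(c / (1 + c * T 1) * (h + σ 0 * t) ^ 2 / 2) + C')))
      (by fun_prop), neg_quad_step (hm 0) (div_nonneg hc hp1.le)]
    have e2 : 1 + m 0 * (c / (1 + c * T 1)) * σ 0 ^ 2 = (1 + c * T 0) / (1 + c * T 1) := by
      rw [hs]
      field_simp
      ring
    have e1 : c / (1 + c * T 1) / (1 + m 0 * (c / (1 + c * T 1)) * σ 0 ^ 2) = c / (1 + c * T 0) := by
      rw [e2, div_div_div_cancel_right₀ hp1.ne']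
    rw [e1, e2, log_div hp0.ne' hp1.ne', hC']
    simp only [Fin.sum_univ_succ, Fin.succ_zero_eq_one, Fin.castSucc_zero]
    ring

theorem facOf_sq {P : Matrix (Fin 1) (Fin 1) ℝ} (hP : P.PosSemidef) : facOf P 0 0 ^ 2 = P 0 0 := by
  have h := cq_facOf hP fun _ => 1
  simpa [cq, dotProduct, Matrix.mulVec] using h

/-- The row value of the quadratic potential along a path. -/
theorem rowVal_quad (hc : 0 < c) {D : Matrix (Fin 1) (Fin 1) ℝ}
    {q : ℕ → Matrix (Fin 1) (Fin 1) ℝ} (hq : IsPath r q) (hD : (D - q r).PosSemidef)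
    (hT : ∀ l, l ≤ r → 0 ≤ tT (gridM r) r D q l 0 0) :
    rowVal (Nested.quad c) r D q
      = 1 / 2 * (levelSum (gridM r) r (fun l => log (1 + c * tT (gridM r) r D q l 0 0))
          - c * q 0 0 0 / (1 + c * tT (gridM r) r D q 0 0 0)) := by
  set T : ℕ → ℝ := fun l => tT (gridM r) r D q l 0 0
  set σT := facOf (D - q r) 0 0
  have hr : 0 < 1 + c * T r := by have := mul_nonneg hc.le (hT r le_rfl); linarith
  have hTr : σT ^ 2 = T r := by simp [σT, T, facOf_sq hD, tT_top (gridM_levels r)]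
  have hleaf : ∀ h : Fin 1 → ℝ, rowLeaf (Nested.quad c) (facOf (D - q r)) h
      = -(c / (1 + c * T r) * h 0 ^ 2 / 2) + -(log (1 + c * T r) / 2) := fun h => by
    have := neg_quad_step one_pos hc.le σT (h 0) 0
    simp only [inv_one, one_mul, add_zero, mul_one, hTr] at this
    have e : ∀ z : Fin 1 → ℝ, Nested.quad c (h + arrMap (facOf (D - q r)) z)
        = -(c * (h 0 + σT * z 0) ^ 2 / 2) := fun z => by
      simp [Nested.quad, arrMap_apply, σT]
    simp only [rowLeaf, e]
    rw [gaus, integral_comp_eval (μ := fun _ : Fin 1 => gaussianReal 0 1) (i := 0)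
      (f := fun t => exp (-(c * (h 0 + σT * t) ^ 2 / 2))) (by fun_prop), this]
    ring
  have hstep : ∀ l : Fin r, T l.castSucc
      = T l.succ + mlev r l * facOf (q (l.val + 1) - q l.val) 0 0 ^ 2 := fun l => by
    rw [facOf_sq (hq.step l.val l.isLt), Fin.val_castSucc, Fin.val_succ, ← gridM_succ]
    simp [T, tT_step (m := gridM r) D q l.isLt]
  have hrow : ∀ (h : Fin 1 → ℝ) (y : Fin r → Fin 1 → ℝ),
      rowFld (fun l : Fin r => facOf (q (l.val + 1) - q l.val)) h y 0
        = h 0 + ∑ l : Fin r, facOf (q (l.val + 1) - q l.val) 0 0 * y l 0 := fun h y => by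
    simp [rowFld, arrMap_apply, Finset.sum_apply]
  have hcq := fun h : Fin 1 → ℝ => casc_neg_quad hc.le r (mlev r) (fun l => T l.val)
    (fun l => facOf (q (l.val + 1) - q l.val) 0 0) (grid_mlev r).pos
    (fun l => hT _ (Nat.le_of_lt_succ l.isLt)) hstep (h 0) (-(log (1 + c * T r) / 2))
  simp only [Fin.val_last, Fin.val_zero, Fin.val_succ, Fin.val_castSucc] at hcq
  simp only [rowVal, rowCasc, hleaf, hrow, hcq]
  set κ := c / (1 + c * T 0)
  set Sm := -(log (1 + c * T r) / 2) + ∑ l : Fin r, (2 * mlev r l)⁻¹ *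
    (log (1 + c * T (l.val + 1)) - log (1 + c * T l.val)) with hSm
  have hz : ∫ z : Fin 1 → ℝ, z 0 ^ 2 ∂gaus (Fin 1) = 1 := by
    rw [gaus_eq_gs]
    simpa [dotProduct, Matrix.mulVec, pow_two] using integral_dot_quad (n := 1) 1
  have hi : Integrable (fun z : Fin 1 → ℝ => z 0 ^ 2) (gaus (Fin 1)) := by
    have h2 : MemLp (fun z : Fin 1 → ℝ => z 0) 2 (gaus (Fin 1)) :=
      (memLp_id_gaussianReal (μ := 0) (v := 1) 2).comp_measurePreserving
        (measurePreserving_eval (μ := fun _ : Fin 1 => gaussianReal 0 1) 0)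
    exact h2.integrable_sq
  have e : ∀ z : Fin 1 → ℝ, -(κ * arrMap (facOf (q 0)) z 0 ^ 2 / 2) + -(log (1 + c * T r) / 2)
      + ∑ l : Fin r, (2 * mlev r l)⁻¹ * (log (1 + c * T (l.val + 1)) - log (1 + c * T l.val))
      = -(κ * q 0 0 0 / 2) * z 0 ^ 2 + Sm := fun z => by
    rw [hSm, ← facOf_sq hq.nonneg]
    simp [arrMap_apply]
    ring
  simp only [e]
  rw [integral_add (hi.const_mul _) (integrable_const _), integral_const_mul, hz, integral_const,
    probReal_univ, one_smul, hSm]
  simp only [levelSum, ← Fin.sum_univ_eq_sum_range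
    (fun l => (gridM r (l + 1))⁻¹ * (log (1 + c * T (l + 1)) - log (1 + c * T l))) r, gridM_succ,
    mul_inv, mul_assoc, ← mul_sum, κ, T]
  ring

/-- The entropy of a scalar path. -/
theorem flatEnt_one : ∀ {n : ℕ}, n = 1 → ∀ (i : Fin n) (D : Matrix (Fin n) (Fin n) ℝ)
    (q : ℕ → Matrix (Fin n) (Fin n) ℝ), flatEnt r D q
      = 1 / 2 * (-levelSum (gridM r) r (fun l => log (tT (gridM r) r D q l i i))
          + q 0 i i / tT (gridM r) r D q 0 i i + 1) := by
  rintro _ rfl i D q
  obtain rfl : i = 0 := Subsingleton.elim _ _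
  simp [flatEnt, Matrix.inv_subsingleton, Matrix.trace, Matrix.mul_apply,
    div_eq_mul_inv]

section One

variable {dd : OIdx 1 → ℝ} {q : TPath 1}

theorem occupied_univ (g : ℝ) : Occupied (fun _ : Fin 1 => g) univ :=
  ⟨univ_nonempty, fun _ _ l hl => absurd (mem_univ l) hl⟩

theorem tfrac_univ (hg : g ≤ 1) (hg0 : 0 < g) : tfrac (fun _ : Fin 1 => g) univ = g := by
  have h1 : (univ : Finset (Fin 1)) = {0} := rfl
  have h2 : tLo (fun _ : Fin 1 => g) univ = 0 := by rw [tLo, Finset.compl_univ, Finset.fold_empty]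
  rw [tfrac, h2, tHi, h1, Finset.fold_singleton, min_eq_left hg, sub_zero, max_eq_right hg0.le]

theorem eq_empty_of_ne_univ : ∀ t : Finset (Fin 1), t ≠ univ → t = ∅ := by decide

theorem flatEnt_empty {t : Finset (Fin 1)} (ht : t = ∅) (D : Matrix (Fin t.card) (Fin t.card) ℝ)
    (q : ℕ → Matrix (Fin t.card) (Fin t.card) ℝ) : flatEnt r D q = 0 := by
  subst ht
  have : IsEmpty (Fin (∅ : Finset (Fin 1)).card) := ⟨fun b => absurd b.isLt (by simp)⟩
  have h0 : ∀ X : Matrix (Fin (∅ : Finset (Fin 1)).card) (Fin (∅ : Finset (Fin 1)).card) ℝ,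
      X.det = 1 ∧ X.trace = 0 := fun X =>
    ⟨Matrix.det_isEmpty, Finset.sum_eq_zero fun i _ => isEmptyElim i⟩
  simp only [flatEnt, levelSum, fun X => (h0 X).1, fun X => (h0 X).2]
  simp

theorem qTot_one (hg : 0 < g) (hg1 : g ≤ 1) (l : ℕ) (b : Fin (univ : Finset (Fin 1)).card) :
    qTot (fun _ => g) q l 0 0 = g * q univ l b b := by
  rw [qTot, Matrix.sum_apply, Finset.sum_eq_single univ (fun t _ ht => ?_) (by simp)]
  · rw [Matrix.smul_apply, smul_eq_mul, tfrac_univ hg1 hg]
    conv_lhs => rw [← Subsingleton.elim (comp univ b) (0 : Fin 1)]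
    rw [liftM_apply_comp]
  · obtain rfl := eq_empty_of_ne_univ t ht
    have h : q ∅ l = 0 := Matrix.ext fun b => absurd b.isLt (by simp)
    rw [h, liftM_zero, smul_zero, Matrix.zero_apply]

/-- The tails and the value of a path of one component. -/
theorem flatPath_one (hc : 0 < c) (hg : g ∈ Set.Ioo (0 : ℝ) 1)
    (hd : dd ∈ centres fun _ : Fin 1 => g) (hq : Formula.Adm (fun _ => g) dd r q)
    (b : Fin (univ : Finset (Fin 1)).card) :
    Tails (gridM r) r (typD (fun _ => g) dd univ b b) (fun l => q univ l b b)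
        (fun l => tT (gridM r) r (typD (fun _ => g) dd univ) (q univ) l b b) ∧
      flatPath (Nested.quad c) (fun _ => g) dd r q
        = qPath c g (gridM r) r (fun l => q univ l b b)
          (fun l => tT (gridM r) r (typD (fun _ => g) dd univ) (q univ) l b b) := by
  set γ : Fin 1 → ℝ := fun _ => g
  have hγ : ∀ k, 0 < γ k ∧ γ k ≤ 1 := fun _ => ⟨hg.1, hg.2.le⟩
  have ho := occupied_univ g
  have hm := gridM_levels r
  obtain ⟨κ, L, -, hgc⟩ := hd
  have hpd := tT_posDef hm (hq.path _ ho) (hq.top _ ho)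
  have ht : Tails (gridM r) r (typD γ dd univ b b) (fun l => q univ l b b)
      (fun l => tT (gridM r) r (typD γ dd univ) (q univ) l b b) := {
    lev := fun l hl => by
      refine ⟨hm.pos (l + 1) (by omega) (by omega), ?_⟩
      have : ((l : ℝ) + 1) ≤ r := by exact_mod_cast hl
      rw [gridM, div_le_one (by positivity)]
      push_cast
      linarith
    pos := fun l hl => (hpd l hl).diag_pos
    start := (hq.path _ ho).nonneg.diag_nonneg
    mono := fun l hl => sub_nonneg.1 ((hq.path _ ho).step l hl).diag_nonneg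
    step := fun l hl => by
      rw [tT_step _ _ hl, Matrix.add_apply, Matrix.smul_apply, Matrix.sub_apply, smul_eq_mul]
    top := by rw [tT_top hm, Matrix.sub_apply] }
  refine ⟨ht, ?_⟩
  have hqt : ∀ l, qTot γ q l 0 0 = g * q univ l b b := fun l => qTot_one hg.1 hg.2.le l b
  have hdt : dTot dd 0 0 = g * typD γ dd univ b b := by
    rw [dTot_eq hγ hgc.1]
    exact qTot_one (q := fun t _ => typD γ dd t) hg.1 hg.2.le 0 b
  have hT : ∀ l, tT (gridM r) r (dTot dd) (qTot γ q) l 0 0
      = g * tT (gridM r) r (typD γ dd univ) (q univ) l b b := fun l => by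
    simp only [tT, Formula.tail, Matrix.sub_apply, Matrix.add_apply, Matrix.sum_apply,
      Matrix.smul_apply, smul_eq_mul, hqt, hdt, mul_sub, mul_add, mul_sum, mul_left_comm g]
  have hrow := rowVal_quad (r := r) hc (qTot_isPath hγ hq.path) (Formula.qTot_top hγ hgc.1 hq)
    fun l hl => by rw [hT]; exact mul_nonneg hg.1.le (ht.pos l hl).le
  simp only [hT, hqt, ← mul_assoc] at hrow
  rw [flatPath, hrow, Finset.sum_eq_single univ
    (fun t _ h => by rw [flatEnt_empty (eq_empty_of_ne_univ t h), mul_zero]) (by simp),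
    tfrac_univ hg.2.le hg.1, flatEnt_one (Finset.card_fin 1) b, qPath]
  ring

/-- The table with the self-overlap `g * x` on the full type. -/
noncomputable def oneTab (g x : ℝ) : OIdx 1 → ℝ := fun i => if i.1 = univ then g * x else 0

theorem oneTab_mem (hg : 0 < g) {x : ℝ} (hx : 0 < x) :
    oneTab g x ∈ centres fun _ : Fin 1 => g := by
  have hgx := mul_pos hg hx
  refine ⟨g * x, g * x, hgx, ⟨fun t k l => rfl, fun t k l h => if_neg fun e : t = univ =>
    h ⟨e ▸ occupied_univ g, e ▸ mem_univ k, e ▸ mem_univ l⟩⟩, fun i => ?_, fun t ht v _ => ?_⟩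
  · simp only [oneTab]
    split_ifs
    · rw [abs_of_pos hgx]
    · rw [abs_zero]; exact hgx.le
  · obtain rfl : t = univ := by
      by_contra h
      exact absurd (eq_empty_of_ne_univ t h ▸ ht.1) (by simp)
    simp [oneTab, pow_two]
    linarith

/-- The value of the quadratic potential of one component under a flat prior. -/
theorem flatSup_quad (hc : 0 < c) (hg : g ∈ Set.Ioo (0 : ℝ) 1) :
    flatSup (Nested.quad c) (fun _ : Fin 1 => g)
      = -(g / 2) * log c + g / 2 + (1 - g) / 2 * log (1 - g) := by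
  set γ : Fin 1 → ℝ := fun _ => g
  have hγ : ∀ k, 0 < γ k ∧ γ k ≤ 1 := fun _ => ⟨hg.1, hg.2.le⟩
  have hg1 : 0 < 1 - g := sub_pos.2 hg.2
  set b : Fin (univ : Finset (Fin 1)).card := ⟨0, by simp⟩
  set xs := (c * (1 - g))⁻¹ with hxs
  have hxs0 : 0 < xs := inv_pos.2 (mul_pos hc hg1)
  have hxs1 : c * (1 - g) * xs = 1 := mul_inv_cancel₀ (mul_pos hc hg1).ne'
  set V := -(g / 2) * log c + g / 2 + (1 - g) / 2 * log (1 - g) with hV
  have hVx : 1 / 2 * (g * log xs - log (1 + c * g * xs) + g) = V := by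
    have e : 1 + c * g * xs = (1 - g)⁻¹ := by
      rw [hxs]
      field_simp
      ring
    rw [e, hxs, log_inv, log_inv, log_mul hc.ne' hg1.ne', hV]
    ring
  have hpos : ∀ dd ∈ centres γ, 0 < typD γ dd univ b b := fun dd hd => by
    obtain ⟨κ, L, hκ, hgc⟩ := hd
    have h := Matrix.PosDef.posSemidef_add (typD_posDef hκ hγ hgc (occupied_univ g))
      (Matrix.PosDef.one.smul (div_pos hκ (tfrac_pos hγ (occupied_univ g))))
    rw [sub_add_cancel] at h
    exact h.diag_pos
  have hbdd : ∀ dd ∈ centres γ,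
      BddBelow {v | ∃ r q, Formula.Adm γ dd r q ∧ v = flatPath (Nested.quad c) γ dd r q} :=
    fun dd hd => by
    set x := typD γ dd univ b b
    refine ⟨1 / 2 * (g * log x - c * g * x + g), ?_⟩
    rintro _ ⟨r, q, hq, rfl⟩
    obtain ⟨ht, e⟩ := flatPath_one hc hg hd hq b
    rw [e]
    exact qPath_crude hc hg.1 ht
  have hup : ∀ dd ∈ centres γ, flatVal (Nested.quad c) γ dd ≤ V := fun dd hd => by
    have hA : Formula.Adm γ dd 0 (fun _ _ => 0) := by
      obtain ⟨κ, L, hκ, hgc⟩ := hd
      refine ⟨fun t _ => ⟨Matrix.PosSemidef.zero, fun l hl => absurd hl (by simp)⟩, fun t ht => ?_⟩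
      have h := Matrix.PosDef.posSemidef_add (typD_posDef hκ hγ hgc ht)
        (Matrix.PosDef.one.smul (div_pos hκ (tfrac_pos hγ ht)))
      simpa using h
    obtain ⟨-, e⟩ := flatPath_one hc hg hd hA b
    refine (csInf_le (hbdd dd hd) ⟨0, fun _ _ => 0, hA, rfl⟩).trans ?_
    set x := typD γ dd univ b b with hxdef
    have hx : 0 < x := hpos dd hd
    have h := quad_tangent hc hg.1 hxs0 hxs1.le hx
    have e0 : g / xs - c * g / (1 + c * g * xs) = 0 := by
      rw [hxs]
      field_simp
      ring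
    rw [e0, zero_mul, add_zero] at h
    rw [e, ← hVx]
    simp only [qPath, levelSum, tT, Formula.tail, range_zero, sum_empty, Finset.Ioc_self,
      smul_zero, add_zero, sub_zero, Matrix.zero_apply, zero_div, zero_sub, mul_zero,
      neg_neg]
    linarith
  refine IsGreatest.csSup_eq ⟨⟨oneTab g xs, oneTab_mem hg.1 hxs0, ?_⟩, ?_⟩
  · refine le_antisymm (hup _ (oneTab_mem hg.1 hxs0))
      (le_csInf (flatSet_nonempty hγ (oneTab_mem hg.1 hxs0)) ?_)
    rintro _ ⟨r, q, hq, rfl⟩
    obtain ⟨ht, e⟩ := flatPath_one hc hg (oneTab_mem hg.1 hxs0) hq b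
    have hx : typD γ (oneTab g xs) univ b b = xs := by
      simp [-Finset.univ_unique, typD, tmat, oneTab, γ, tfrac_univ hg.2.le hg.1]
      show g⁻¹ * (g * xs) = xs
      rw [← mul_assoc, inv_mul_cancel₀ hg.1.ne', one_mul]
    rw [hx] at ht
    rw [e, ← hVx]
    exact qPath_ge hc hg.1 hg.2 ht hxs1.le
  · rintro _ ⟨dd, hd, rfl⟩
    exact hup dd hd

end One

end Vale.Agent.P166.Main
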