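import Vale.Agent.P166.Formula.Value

/-!
P166: the value of one row for a potential bounded above and at most quadratic below, its lower
bound by the self-overlap, and its limits.
-/

open MeasureTheory ProbabilityTheory Filter Topology Finset
open Matrix hiding comp

namespace Vale.Agent.P166.Main

open Vale.Agent.P166 Vale.Agent.P166.Formula
open Vale.Agent.P157.Casc (casc gaus mlev grid_mlev)
open Vale.Agent.P150.Fast.Dom (arrMap arrMap_apply)

variable {d : ℕ}

section Step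

variable {A C c m : ℝ}

/-- The mean square of a shifted linear image of a standard Gaussian vector. -/
theorem quad_int (T : Fin d → Fin d → ℝ) (h : Fin d → ℝ) :
    Integrable (fun x => ∑ k, (h + arrMap T x) k ^ 2) (gaus (Fin d)) ∧
      ∫ x, ∑ k, (h + arrMap T x) k ^ 2 ∂gaus (Fin d)
        = (∑ k, h k ^ 2) + ∑ k, ∑ i, T k i ^ 2 := by
  have hL : ∀ i, MemLp (fun z : Fin d → ℝ => z i) 2 (gaus (Fin d)) := fun i => by
    have := (memLp_id_gaussianReal (μ := 0) (v := 1) 2).comp_measurePreserving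
      (measurePreserving_eval (μ := fun _ : Fin d => gaussianReal 0 1) i)
    simpa [gaus, Function.comp_def] using this
  have hi1 : ∀ i, Integrable (fun z : Fin d → ℝ => z i) (gaus (Fin d)) := fun i =>
    (hL i).integrable one_le_two
  have hi2 : ∀ i j, Integrable (fun z : Fin d → ℝ => z i * z j) (gaus (Fin d)) := fun i j =>
    (hL i).integrable_mul (hL j)
  have h0 : ∀ i, ∫ z, z i ∂gaus (Fin d) = 0 := fun i =>
    (integral_comp_eval (μ := fun _ : Fin d => gaussianReal 0 1) (i := i) (f := fun x : ℝ => x)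
      measurable_id.aestronglyMeasurable).trans integral_id_gaussianReal
  set M : Matrix (Fin d) (Fin d) ℝ := Matrix.of fun i j => ∑ k, T k i * T k j
  have e : ∀ x : Fin d → ℝ, ∑ k, (h + arrMap T x) k ^ 2
      = ((∑ k, h k ^ 2) + ∑ i, (2 * ∑ k, h k * T k i) * x i) + x ⬝ᵥ M *ᵥ x := fun x => by
    have e2 : ∀ k, (h k + ∑ i, T k i * x i) ^ 2 = h k ^ 2 + ∑ i, 2 * (h k * T k i) * x i
        + ∑ i, ∑ j, x i * (T k i * T k j * x j) := fun k => by
      rw [add_sq, pow_two (∑ i, T k i * x i), Finset.sum_mul_sum, Finset.mul_sum]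
      congr 1
      · exact congrArg _ (Finset.sum_congr rfl fun i _ => by ring)
      · exact Finset.sum_congr rfl fun i _ => Finset.sum_congr rfl fun j _ => by ring
    simp only [Pi.add_apply, arrMap_apply, e2, Finset.sum_add_distrib, dotProduct, Matrix.mulVec,
      M, Matrix.of_apply, Finset.mul_sum, Finset.sum_mul]
    congr 1
    · congr 1
      exact Finset.sum_comm
    · rw [Finset.sum_comm]
      exact Finset.sum_congr rfl fun i _ => Finset.sum_comm
  have iq : Integrable (fun x : Fin d → ℝ => x ⬝ᵥ M *ᵥ x) (gaus (Fin d)) := by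
    simp only [dotProduct, Matrix.mulVec, Finset.mul_sum]
    exact integrable_finsetSum _ fun i _ => integrable_finsetSum _ fun j _ =>
      ((hi2 i j).const_mul (M i j)).congr (ae_of_all _ fun x => mul_left_comm _ _ _)
  have il : Integrable (fun x : Fin d → ℝ => ∑ i, (2 * ∑ k, h k * T k i) * x i) (gaus (Fin d)) :=
    integrable_finsetSum _ fun i _ => (hi1 i).const_mul _
  refine ⟨(((integrable_const _).add il).add iq).congr (ae_of_all _ fun x => (e x).symm), ?_⟩
  rw [integral_congr_ae (ae_of_all _ e), integral_add ((integrable_const _).fun_add il) iq,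
    integral_add (integrable_const _) il, integral_const, probReal_univ, one_smul,
    integral_finsetSum _ fun i _ => (hi1 i).const_mul _,
    gaus_eq_gs, integral_dot_quad, ← gaus_eq_gs]
  simp only [integral_const_mul, h0, mul_zero, Finset.sum_const_zero, add_zero, Matrix.trace,
    Matrix.diag, M, Matrix.of_apply, pow_two]
  rw [Finset.sum_comm]

variable {f g : (Fin d → ℝ) → ℝ} (hf : Measurable f) (hC : ∀ v, f v ≤ C) (hm : 0 < m)
include hf hC hm

theorem step_integrable (T : Fin d → Fin d → ℝ) (h : Fin d → ℝ) :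
    Integrable (fun x => Real.exp (m * f (h + arrMap T x))) (gaus (Fin d)) :=
  (integrable_const (Real.exp (m * C))).mono'
    ((hf.comp ((measurable_const_add h).comp
      (arrMap T).continuous.measurable)).const_mul m).exp.aestronglyMeasurable
    (ae_of_all _ fun x => by
      rw [Real.norm_eq_abs, abs_of_pos (Real.exp_pos _)]
      exact Real.exp_le_exp.2 (mul_le_mul_of_nonneg_left (hC _) hm.le))

theorem step_pos (T : Fin d → Fin d → ℝ) (h : Fin d → ℝ) :
    0 < ∫ x, Real.exp (m * f (h + arrMap T x)) ∂gaus (Fin d) :=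
  integral_exp_pos (step_integrable hf hC hm T h)

/-- One level keeps a bound above. -/
theorem step_le (T : Fin d → Fin d → ℝ) (h : Fin d → ℝ) :
    m⁻¹ * Real.log (∫ x, Real.exp (m * f (h + arrMap T x)) ∂gaus (Fin d)) ≤ C := by
  rw [inv_mul_le_iff₀ hm, Real.log_le_iff_le_exp (step_pos hf hC hm T h)]
  simpa using integral_mono (step_integrable hf hC hm T h)
    (integrable_const (Real.exp (m * C))) fun x =>
      Real.exp_le_exp.2 (mul_le_mul_of_nonneg_left (hC _) hm.le)

/-- One level adds its variance to a quadratic bound below. -/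
theorem step_ge (hlo : ∀ v, -(A * (1 + ∑ k, v k ^ 2 + c)) ≤ f v)
    (T : Fin d → Fin d → ℝ) (h : Fin d → ℝ) :
    -(A * (1 + ∑ k, h k ^ 2 + ((∑ k, ∑ i, T k i ^ 2) + c)))
      ≤ m⁻¹ * Real.log (∫ x, Real.exp (m * f (h + arrMap T x)) ∂gaus (Fin d)) := by
  obtain ⟨iq, eq⟩ := quad_int T h
  set a := m * -(A * (1 + ∑ k, h k ^ 2 + ((∑ k, ∑ i, T k i ^ 2) + c))) with ha
  set G := fun x => m * -(A * (1 + ∑ k, (h + arrMap T x) k ^ 2 + c))
  have iG : Integrable G (gaus (Fin d)) :=
    ((((integrable_const 1).add iq).add (integrable_const c)).const_mul A).neg.const_mul m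
  have eG : ∫ x, G x ∂gaus (Fin d) = a := by
    simp only [G]
    rw [integral_const_mul, integral_neg, integral_const_mul,
      integral_add ((integrable_const (1 : ℝ)).fun_add iq) (integrable_const c),
      integral_add (integrable_const (1 : ℝ)) iq, eq, integral_const, integral_const,
      probReal_univ, one_smul, one_smul, ha]
    ring
  have i1 : Integrable (fun x => Real.exp a * (1 + G x - a)) (gaus (Fin d)) :=
    (((integrable_const 1).add iG).sub (integrable_const a)).const_mul _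
  have hpt : ∀ x, Real.exp a * (1 + G x - a) ≤ Real.exp (m * f (h + arrMap T x)) := fun x => by
    refine le_trans ?_ (Real.exp_le_exp.2 (mul_le_mul_of_nonneg_left (hlo _) hm.le))
    rw [show Real.exp (m * -(A * (1 + ∑ k, (h + arrMap T x) k ^ 2 + c)))
      = Real.exp a * Real.exp (G x - a) by rw [← Real.exp_add]; simp [G]]
    exact mul_le_mul_of_nonneg_left (by linarith [Real.add_one_le_exp (G x - a)])
      (Real.exp_pos _).le
  have h1 := integral_mono i1 (step_integrable hf hC hm T h) hpt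
  rw [integral_const_mul, integral_sub ((integrable_const (1 : ℝ)).fun_add iG) (integrable_const a),
    integral_add (integrable_const (1 : ℝ)) iG, eG, integral_const, integral_const, probReal_univ,
    one_smul, one_smul, add_sub_cancel_right, mul_one] at h1
  have h2 := (Real.le_log_iff_exp_le (step_pos hf hC hm T h)).2 h1
  rw [le_inv_mul_iff₀ hm]
  exact h2

/-- One level is monotone. -/
theorem step_mono (hg : Measurable g) (hgC : ∀ v, g v ≤ C) (hfg : ∀ v, f v ≤ g v)
    (T : Fin d → Fin d → ℝ) (h : Fin d → ℝ) :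
    m⁻¹ * Real.log (∫ x, Real.exp (m * f (h + arrMap T x)) ∂gaus (Fin d))
      ≤ m⁻¹ * Real.log (∫ x, Real.exp (m * g (h + arrMap T x)) ∂gaus (Fin d)) :=
  mul_le_mul_of_nonneg_left (Real.log_le_log (step_pos hf hC hm T h)
    (integral_mono (step_integrable hf hC hm T h) (step_integrable hg hgC hm T h) fun _ =>
      Real.exp_le_exp.2 (mul_le_mul_of_nonneg_left (hfg _) hm.le))) (inv_nonneg.2 hm.le)

end Step

/-- One level passes to limits under a bound above. -/
theorem step_tendsto {C m : ℝ} (hm : 0 < m) {f : ℕ → (Fin d → ℝ) → ℝ} {g : (Fin d → ℝ) → ℝ}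
    (hf : ∀ n, Measurable (f n)) (hC : ∀ n v, f n v ≤ C) (hg : Measurable g)
    (hgC : ∀ v, g v ≤ C) {T : ℕ → Fin d → Fin d → ℝ} {T0 : Fin d → Fin d → ℝ} (h : Fin d → ℝ)
    (hlim : ∀ x, Tendsto (fun n => f n (h + arrMap (T n) x)) atTop (𝓝 (g (h + arrMap T0 x)))) :
    Tendsto (fun n => m⁻¹ * Real.log (∫ x, Real.exp (m * f n (h + arrMap (T n) x)) ∂gaus (Fin d)))
      atTop (𝓝 (m⁻¹ * Real.log (∫ x, Real.exp (m * g (h + arrMap T0 x)) ∂gaus (Fin d)))) := by
  refine ((tendsto_integral_of_dominated_convergence (fun _ => Real.exp (m * C))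
    (fun n => (step_integrable (hf n) (hC n) hm (T n) h).aestronglyMeasurable)
    (integrable_const _) (fun n => ae_of_all _ fun x => ?_)
    (ae_of_all _ fun x => ((hlim x).const_mul m).rexp)).log
      (step_pos hg hgC hm T0 h).ne').const_mul _
  rw [Real.norm_eq_abs, abs_of_pos (Real.exp_pos _)]
  exact Real.exp_le_exp.2 (mul_le_mul_of_nonneg_left (hC n _) hm.le)

section Casc

theorem casc_fld_up : ∀ (K : ℕ) {m : Fin K → ℝ}, (∀ l, 0 < m l) →
    ∀ (S : Fin K → Fin d → Fin d → ℝ) {f : (Fin d → ℝ) → ℝ} {C : ℝ}, Measurable f →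
      (∀ v, f v ≤ C) → ∀ h, casc (gaus (Fin d)) K m (fun y => f (rowFld S h y)) ≤ C
  | 0, _, _, _, _, _, _, hC, _ => hC _
  | K + 1, m, hm, S, f, C, hf, hC, h => by
    rw [casc_fld_succ]
    exact step_le (measurable_casc_fld (fun l => S l.succ) (fun l => m l.succ) hf)
      (casc_fld_up K (fun l => hm l.succ) _ hf hC) (hm 0) (S 0) h

theorem casc_fld_low : ∀ (K : ℕ) {m : Fin K → ℝ}, (∀ l, 0 < m l) →
    ∀ (S : Fin K → Fin d → Fin d → ℝ) {f : (Fin d → ℝ) → ℝ} {A C c : ℝ}, Measurable f →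
      (∀ v, f v ≤ C) → (∀ v, -(A * (1 + ∑ k, v k ^ 2 + c)) ≤ f v) → ∀ h,
      -(A * (1 + ∑ k, h k ^ 2 + ((∑ l, ∑ k, ∑ i, S l k i ^ 2) + c)))
        ≤ casc (gaus (Fin d)) K m (fun y => f (rowFld S h y))
  | 0, _, _, _, _, _, _, _, _, _, hlo, h => by
    simpa [casc, rowFld] using hlo h
  | K + 1, m, hm, S, f, A, C, c, hf, hC, hlo, h => by
    rw [casc_fld_succ, Fin.sum_univ_succ, add_assoc (∑ k, ∑ i, S 0 k i ^ 2)]
    exact step_ge (measurable_casc_fld (fun l => S l.succ) (fun l => m l.succ) hf)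
      (casc_fld_up K (fun l => hm l.succ) _ hf hC) (hm 0)
      (casc_fld_low K (fun l => hm l.succ) _ hf hC hlo) (S 0) h

theorem casc_fld_mono : ∀ (K : ℕ) {m : Fin K → ℝ}, (∀ l, 0 < m l) →
    ∀ (S : Fin K → Fin d → Fin d → ℝ) {f g : (Fin d → ℝ) → ℝ} {C : ℝ}, Measurable f →
      Measurable g → (∀ v, g v ≤ C) → (∀ v, f v ≤ g v) → ∀ h,
      casc (gaus (Fin d)) K m (fun y => f (rowFld S h y))
        ≤ casc (gaus (Fin d)) K m (fun y => g (rowFld S h y))
  | 0, _, _, _, _, _, _, _, _, _, hfg, _ => hfg _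
  | K + 1, m, hm, S, f, g, C, hf, hg, hC, hfg, h => by
    rw [casc_fld_succ, casc_fld_succ]
    exact step_mono (measurable_casc_fld (fun l => S l.succ) (fun l => m l.succ) hf)
      (casc_fld_up K (fun l => hm l.succ) _ hf fun v => (hfg v).trans (hC v)) (hm 0)
      (measurable_casc_fld (fun l => S l.succ) (fun l => m l.succ) hg)
      (casc_fld_up K (fun l => hm l.succ) _ hg hC)
      (casc_fld_mono K (fun l => hm l.succ) _ hf hg hC hfg) (S 0) h

theorem casc_fld_tendsto : ∀ (K : ℕ) {m : Fin K → ℝ}, (∀ l, 0 < m l) →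
    ∀ (S : Fin K → Fin d → Fin d → ℝ) {f : ℕ → (Fin d → ℝ) → ℝ} {g : (Fin d → ℝ) → ℝ} {C : ℝ},
      (∀ n, Measurable (f n)) → (∀ n v, f n v ≤ C) → Measurable g → (∀ v, g v ≤ C) →
      (∀ v, Tendsto (fun n => f n v) atTop (𝓝 (g v))) → ∀ h,
      Tendsto (fun n => casc (gaus (Fin d)) K m (fun y => f n (rowFld S h y))) atTop
        (𝓝 (casc (gaus (Fin d)) K m fun y => g (rowFld S h y)))
  | 0, _, _, _, _, _, _, _, _, _, _, hlim, _ => hlim _
  | K + 1, m, hm, S, f, g, C, hf, hC, hg, hgC, hlim, h => by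
    simp only [casc_fld_succ]
    exact step_tendsto (hm 0)
      (fun n => measurable_casc_fld (fun l => S l.succ) (fun l => m l.succ) (hf n))
      (fun n => casc_fld_up K (fun l => hm l.succ) _ (hf n) (hC n))
      (measurable_casc_fld (fun l => S l.succ) (fun l => m l.succ) hg)
      (casc_fld_up K (fun l => hm l.succ) _ hg hgC) (T := fun _ => S 0) h
      fun x => casc_fld_tendsto K (fun l => hm l.succ) _ hf hC hg hgC hlim _

end Casc

section Row

variable {A C : ℝ} {f g : (Fin d → ℝ) → ℝ} {K : ℕ} {D : Matrix (Fin d) (Fin d) ℝ}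
  {q : ℕ → Matrix (Fin d) (Fin d) ℝ}

theorem rowLeaf_eq (f : (Fin d → ℝ) → ℝ) (T : Fin d → Fin d → ℝ) (h : Fin d → ℝ) :
    rowLeaf f T h
      = (1 : ℝ)⁻¹ * Real.log (∫ x, Real.exp (1 * f (h + arrMap T x)) ∂gaus (Fin d)) := by
  simp [rowLeaf]

theorem rowLeaf_up (hf : Measurable f) (hC : ∀ v, f v ≤ C) (T : Fin d → Fin d → ℝ)
    (h : Fin d → ℝ) : rowLeaf f T h ≤ C := by
  rw [rowLeaf_eq]
  exact step_le hf hC one_pos T h

theorem rowLeaf_low (hf : Measurable f) (hC : ∀ v, f v ≤ C)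
    (hlo : ∀ v, -(A * (1 + ∑ k, v k ^ 2)) ≤ f v) (T : Fin d → Fin d → ℝ) (h : Fin d → ℝ) :
    -(A * (1 + ∑ k, h k ^ 2 + ∑ k, ∑ i, T k i ^ 2)) ≤ rowLeaf f T h := by
  rw [rowLeaf_eq]
  simpa using step_ge (c := 0) hf hC one_pos (fun v => by simpa using hlo v) T h

theorem sum_facOf_sq {P : Matrix (Fin d) (Fin d) ℝ} (hP : P.PosSemidef) :
    ∑ k, ∑ i, facOf P k i ^ 2 = P.trace := by
  refine Finset.sum_congr rfl fun k _ => ?_
  simpa [cq, Pi.single_apply, Finset.sum_ite_eq', dotProduct, Matrix.mulVec] using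
    cq_facOf hP (Pi.single k 1)

/-- The integrand of the root of a row is between an integrable bound and `C`. -/
theorem row_root (hA : 0 ≤ A) (hf : Measurable f) (hC : ∀ v, f v ≤ C)
    (hlo : ∀ v, -(A * (1 + ∑ k, v k ^ 2)) ≤ f v) (S : Fin K → Fin d → Fin d → ℝ)
    (T A0 : Fin d → Fin d → ℝ) {s : ℝ} (hs : ∑ k, ∑ i, T k i ^ 2 ≤ s) (z : Fin d → ℝ) :
    -(A * (1 + ∑ k, ((0 : Fin d → ℝ) + arrMap A0 z) k ^ 2 + ((∑ l, ∑ k, ∑ i, S l k i ^ 2) + s)))
        ≤ casc (gaus (Fin d)) K (mlev K) (fun y => rowLeaf f T (rowFld S (arrMap A0 z) y)) ∧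
      casc (gaus (Fin d)) K (mlev K) (fun y => rowLeaf f T (rowFld S (arrMap A0 z) y)) ≤ C := by
  refine ⟨?_, casc_fld_up K (grid_mlev K).pos S (measurable_rowLeaf hf T) (rowLeaf_up hf hC T) _⟩
  rw [zero_add]
  refine casc_fld_low K (grid_mlev K).pos S (measurable_rowLeaf hf T) (rowLeaf_up hf hC T)
    (fun v => le_trans (neg_le_neg (mul_le_mul_of_nonneg_left ?_ hA)) (rowLeaf_low hf hC hlo T v)) _
  linarith

theorem integrable_root (hA : 0 ≤ A) (hf : Measurable f) (hC : ∀ v, f v ≤ C)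
    (hlo : ∀ v, -(A * (1 + ∑ k, v k ^ 2)) ≤ f v) (S : Fin K → Fin d → Fin d → ℝ)
    (T A0 : Fin d → Fin d → ℝ) :
    Integrable (fun z => casc (gaus (Fin d)) K (mlev K)
      fun y => rowLeaf f T (rowFld S (arrMap A0 z) y)) (gaus (Fin d)) := by
  refine Integrable.mono' ((integrable_const |C|).add ((((integrable_const (1 : ℝ)).add
      (quad_int A0 0).1).add (integrable_const ((∑ l, ∑ k, ∑ i, S l k i ^ 2)
        + ∑ k, ∑ i, T k i ^ 2))).const_mul A))
    ((measurable_casc_fld S _ (measurable_rowLeaf hf T)).comp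
      (arrMap A0).continuous.measurable).aestronglyMeasurable (ae_of_all _ fun z => ?_)
  obtain ⟨h1, h2⟩ := row_root hA hf hC hlo S T A0 le_rfl z
  have h3 : 0 ≤ A * (1 + ∑ k, ((0 : Fin d → ℝ) + arrMap A0 z) k ^ 2
      + ((∑ l, ∑ k, ∑ i, S l k i ^ 2) + ∑ k, ∑ i, T k i ^ 2)) := by positivity
  rw [Real.norm_eq_abs]
  refine abs_le.2 ⟨?_, ?_⟩ <;> simp only [Pi.add_apply, Pi.zero_apply] at h1 h3 ⊢ <;>
    linarith [abs_nonneg C, le_abs_self C]

/-- A row is at most the bound of its potential. -/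
theorem rowVal_up (hA : 0 ≤ A) (hf : Measurable f) (hC : ∀ v, f v ≤ C)
    (hlo : ∀ v, -(A * (1 + ∑ k, v k ^ 2)) ≤ f v) : rowVal f K D q ≤ C := by
  refine (integral_mono (integrable_root hA hf hC hlo _ _ _) (integrable_const C) fun z =>
    casc_fld_up K (grid_mlev K).pos _ (measurable_rowLeaf hf _) (rowLeaf_up hf hC _) _).trans_eq ?_
  simp

/-- A row is bounded below by the mean of the quadratic bound. -/
theorem rowVal_low (hA : 0 ≤ A) (hf : Measurable f) (hC : ∀ v, f v ≤ C)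
    (hlo : ∀ v, -(A * (1 + ∑ k, v k ^ 2)) ≤ f v) (hq : IsPath K q) (hD : (D - q K).PosSemidef) :
    -(A * (1 + D.trace)) ≤ rowVal f K D q := by
  set S : Fin K → Fin d → Fin d → ℝ := fun l => facOf (q (l.val + 1) - q l.val) with hS
  set T := facOf (D - q K) with hT
  obtain ⟨iq, eq⟩ := quad_int (facOf (q 0)) 0
  have iL : Integrable (fun z => -(A * (1 + ∑ k, ((0 : Fin d → ℝ) + arrMap (facOf (q 0)) z) k ^ 2
      + ((∑ l, ∑ k, ∑ i, S l k i ^ 2) + ∑ k, ∑ i, T k i ^ 2)))) (gaus (Fin d)) :=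
    ((((integrable_const (1 : ℝ)).add iq).add (integrable_const _)).const_mul A).neg
  refine le_trans (le_of_eq ?_) (integral_mono iL (integrable_root hA hf hC hlo S T (facOf (q 0)))
    fun z => (row_root hA hf hC hlo S T (facOf (q 0)) le_rfl z).1)
  rw [integral_neg, integral_const_mul,
    integral_add ((integrable_const (1 : ℝ)).fun_add iq) (integrable_const _),
    integral_add (integrable_const (1 : ℝ)) iq, eq, integral_const, integral_const, probReal_univ,
    one_smul, one_smul]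
  have e1 : ∑ l, ∑ k, ∑ i, S l k i ^ 2 = (q K).trace - (q 0).trace := by
    rw [hS, Finset.sum_congr rfl fun l : Fin K => fun _ => sum_facOf_sq (hq.step l.val l.isLt)]
    simp only [Matrix.trace_sub]
    rw [Fin.sum_univ_eq_sum_range (fun l => (q (l + 1)).trace - (q l).trace) K,
      Finset.sum_range_sub (fun l => (q l).trace) K]
  rw [e1, hT, sum_facOf_sq hD, sum_facOf_sq hq.nonneg, Matrix.trace_sub]
  simp only [Pi.zero_apply]
  ring_nf
  simp

/-- A row is monotone in its potential. -/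
theorem rowVal_mono (hA : 0 ≤ A) (hf : Measurable f) (hg : Measurable g) (hC : ∀ v, g v ≤ C)
    (hlo : ∀ v, -(A * (1 + ∑ k, v k ^ 2)) ≤ f v) (hfg : ∀ v, f v ≤ g v) :
    rowVal f K D q ≤ rowVal g K D q := by
  have hfC : ∀ v, f v ≤ C := fun v => (hfg v).trans (hC v)
  refine integral_mono (integrable_root hA hf hfC hlo _ _ _)
    (integrable_root hA hg hC (fun v => (hlo v).trans (hfg v)) _ _ _) fun z => ?_
  refine casc_fld_mono K (grid_mlev K).pos _ (measurable_rowLeaf hf _) (measurable_rowLeaf hg _)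
    (rowLeaf_up hg hC _) (fun v => ?_) _
  rw [rowLeaf_eq, rowLeaf_eq]
  exact step_mono hf hfC one_pos hg hC hfg _ v

/-- Along a subsequence the values of a row pass to the limit of the potentials and of the
self-overlaps. -/
theorem rowVal_tendsto (hA : 0 ≤ A) {fn : ℕ → (Fin d → ℝ) → ℝ} (hf : ∀ n, Measurable (fn n))
    (hC : ∀ n v, fn n v ≤ C) (hlo : ∀ n v, -(A * (1 + ∑ k, v k ^ 2)) ≤ fn n v)
    (hg : Measurable g) (hgC : ∀ v, g v ≤ C)
    (hlim : ∀ (v : ℕ → Fin d → ℝ) v0 (φ : ℕ → ℕ), StrictMono φ → Tendsto v atTop (𝓝 v0) →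
      Tendsto (fun n => fn (φ n) (v n)) atTop (𝓝 (g v0)))
    {Dn : ℕ → Matrix (Fin d) (Fin d) ℝ} (hDn : Tendsto Dn atTop (𝓝 D))
    (hPn : ∀ n, (Dn n - q K).PosSemidef) (hP : (D - q K).PosSemidef) :
    ∃ φ : ℕ → ℕ, StrictMono φ ∧
      Tendsto (fun n => rowVal (fn (φ n)) K (Dn (φ n)) q) atTop (𝓝 (rowVal g K D q)) := by
  set T := fun n => facOf (Dn n - q K) with hTdef
  have hD' : Tendsto (fun n => Dn n - q K) atTop (𝓝 (D - q K)) := hDn.sub_const _
  have hent : ∀ k l, Tendsto (fun n => (Dn n - q K) k l) atTop (𝓝 ((D - q K) k l)) := fun k l =>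
    tendsto_pi_nhds.1 (tendsto_pi_nhds.1 hD' k) l
  have htr : Tendsto (fun n => (Dn n - q K).trace) atTop (𝓝 (D - q K).trace) :=
    tendsto_finsetSum _ fun k _ => hent k k
  obtain ⟨s, hs⟩ := htr.bddAbove_range
  have hsum : ∀ n, ∑ k, ∑ i, T n k i ^ 2 ≤ s := fun n =>
    (sum_facOf_sq (hPn n)).trans_le (hs ⟨n, rfl⟩)
  have hball : ∀ n, T n ∈ Metric.closedBall (0 : Fin d → Fin d → ℝ) (|s| + 1) := fun n => by
    rw [Metric.mem_closedBall, dist_zero_right, pi_norm_le_iff_of_nonneg (by positivity)]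
    refine fun k => (pi_norm_le_iff_of_nonneg (by positivity)).2 fun i => ?_
    have h1 : T n k i ^ 2 ≤ s :=
      ((Finset.single_le_sum (f := fun i => T n k i ^ 2) (fun i _ => sq_nonneg _)
        (Finset.mem_univ i)).trans (Finset.single_le_sum (f := fun k => ∑ i, T n k i ^ 2)
          (fun k _ => Finset.sum_nonneg fun i _ => sq_nonneg _) (Finset.mem_univ k))).trans (hsum n)
    rw [Real.norm_eq_abs]
    nlinarith [sq_abs (T n k i), le_abs_self s, sq_nonneg (|T n k i| - 1)]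
  obtain ⟨T0, -, φ, hφ, hT0⟩ :=
    (isCompact_closedBall (0 : Fin d → Fin d → ℝ) (|s| + 1)).tendsto_subseq hball
  refine ⟨φ, hφ, ?_⟩
  have hcq : ∀ u, cq T0 u = cq (facOf (D - q K)) u := fun u => by
    rw [cq_facOf hP]
    have h1 : Tendsto (fun n => cq (T (φ n)) u) atTop (𝓝 (cq T0 u)) :=
      ((by unfold cq; fun_prop : Continuous fun T : Fin d → Fin d → ℝ => cq T u).tendsto T0).comp hT0
    have h2 : Tendsto (fun n => u ⬝ᵥ (Dn (φ n) - q K) *ᵥ u) atTop (𝓝 (u ⬝ᵥ (D - q K) *ᵥ u)) :=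
      ((by fun_prop : Continuous fun P : Matrix (Fin d) (Fin d) ℝ => u ⬝ᵥ P *ᵥ u).tendsto _).comp
        (hD'.comp hφ.tendsto_atTop)
    exact tendsto_nhds_unique (h1.congr fun n => cq_facOf (hPn (φ n)) u) h2
  have hleaf0 : rowLeaf g T0 = rowLeaf g (facOf (D - q K)) := funext fun h => congrArg Real.log
    (integral_image_eq hcq (F := fun v => Real.exp (g (h + v)))
      (hg.comp (measurable_const_add h)).exp)
  have hleaf : ∀ h, Tendsto (fun n => rowLeaf (fn (φ n)) (T (φ n)) h) atTop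
      (𝓝 (rowLeaf g (facOf (D - q K)) h)) := fun h => by
    rw [← hleaf0]
    simp only [rowLeaf_eq]
    refine step_tendsto one_pos (fun n => hf (φ n)) (fun n => hC (φ n)) hg hgC h fun x =>
      hlim _ _ φ hφ ?_
    refine tendsto_const_nhds.add (tendsto_pi_nhds.2 fun k => ?_)
    simp only [arrMap_apply]
    exact tendsto_finsetSum _ fun i _ =>
      ((tendsto_pi_nhds.1 (tendsto_pi_nhds.1 hT0 k) i)).mul_const _
  set S : Fin K → Fin d → Fin d → ℝ := fun l => facOf (q (l.val + 1) - q l.val)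
  obtain ⟨iq, -⟩ := quad_int (facOf (q 0)) 0
  refine tendsto_integral_of_dominated_convergence (fun z => |C| + A *
      (1 + ∑ k, ((0 : Fin d → ℝ) + arrMap (facOf (q 0)) z) k ^ 2
        + ((∑ l, ∑ k, ∑ i, S l k i ^ 2) + |s|)))
    (fun n => ((measurable_casc_fld S _ (measurable_rowLeaf (hf _) _)).comp
      (arrMap (facOf (q 0))).continuous.measurable).aestronglyMeasurable)
    ((integrable_const |C|).add ((((integrable_const (1 : ℝ)).add iq).add
      (integrable_const _)).const_mul A)) (fun n => ae_of_all _ fun z => ?_)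
    (ae_of_all _ fun z => casc_fld_tendsto K (grid_mlev K).pos S
      (fun n => measurable_rowLeaf (hf _) _) (fun n => rowLeaf_up (hf _) (hC _) _)
      (measurable_rowLeaf hg _) (rowLeaf_up hg hgC _) hleaf _)
  obtain ⟨h1, h2⟩ := row_root hA (hf (φ n)) (hC _) (hlo _) S (T (φ n)) (facOf (q 0))
    ((hsum (φ n)).trans (le_abs_self s)) z
  rw [Real.norm_eq_abs]
  have h3 : 0 ≤ A * (1 + ∑ k, ((0 : Fin d → ℝ) + arrMap (facOf (q 0)) z) k ^ 2
      + ((∑ l, ∑ k, ∑ i, S l k i ^ 2) + |s|)) := by positivity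
  exact abs_le.2 ⟨by linarith [abs_nonneg C], by linarith [le_abs_self C]⟩

end Row

end Vale.Agent.P166.Main
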