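import Vale.Agent.P166.Main.Defs
import Vale.Agent.P166.Main.UntruncRow
import Vale.Agent.P166.Formula.PathLip
import Vale.Agent.P166.Formula.PathNet
import Vale.Agent.P166.Formula.SpinQuad
import Vale.Agent.P166.Formula.Block
import Vale.Agent.P166.Pen.PenPoint

/-!
P166: the cut disappears from the variational value, which is then attained at a definite table of
self-overlaps.
-/

open MeasureTheory Filter Topology Finset Real
open Matrix hiding comp

namespace Vale.Agent.P166.Main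

open Vale.Agent.P166 Vale.Agent.P166.Pen Vale.Agent.P166.Formula
open Vale.Agent.P166.Casc (comp comp_mem exists_comp mabs)

variable {d n : ℕ}

section Cut

variable {C : ℝ} {f : (Fin d → ℝ) → ℝ}

theorem trunc_sub_le (hup : ∀ y, f y ≤ C) {R : ℝ} (hR : 0 < R) (y : Fin d → ℝ) :
    trunc C R f y - f y ≤ (C - f y) ^ 2 / (2 * R) := by
  have h := mul_le_mul_of_nonneg_left
    (exp_neg_le_quad (div_nonneg (sub_nonneg.2 (hup y)) hR.le)) hR.le
  have e : R * (1 - (C - f y) / R + ((C - f y) / R) ^ 2 / 2)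
      = R - (C - f y) + (C - f y) ^ 2 / (2 * R) := by
    field_simp
  rw [e] at h
  simp only [trunc]
  linarith

/-- The cuts tend to the potential, locally uniformly. -/
theorem trunc_tendsto (hup : ∀ y, f y ≤ C) (hf : Continuous f) {R : ℕ → ℝ} (hR : ∀ i, 0 < R i)
    (hRt : Tendsto R atTop atTop) {v : ℕ → Fin d → ℝ} {v0 : Fin d → ℝ}
    (hv : Tendsto v atTop (𝓝 v0)) :
    Tendsto (fun i => trunc C (R i) f (v i)) atTop (𝓝 (f v0)) := by
  have hfv := (hf.tendsto v0).comp hv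
  have h0 : Tendsto (fun i => (C - f (v i)) ^ 2 / (2 * R i)) atTop (𝓝 0) :=
    ((tendsto_const_nhds.sub hfv).pow 2).div_atTop (hRt.const_mul_atTop two_pos)
  refine tendsto_of_tendsto_of_tendsto_of_le_of_le hfv (by simpa using hfv.add h0)
    (fun i => le_trunc (hR i) (v i)) fun i => ?_
  linarith [trunc_sub_le hup (hR i) (v i)]

end Cut

section Zero

/-- The entropy of the zero path. -/
noncomputable def zeroEnt (τ : ℝ) (X : Matrix (Fin n) (Fin n) ℝ) : ℝ :=
  1 / 2 * (log X.det - X.trace / τ + n * (1 - log τ))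

theorem ent_zero (τ : ℝ) (X : Matrix (Fin n) (Fin n) ℝ) :
    ent (gridM 0) 0 τ X (fun _ => 0) = zeroEnt τ X := by
  simp [ent, levelSum, zeroEnt, tT_top (gridM_levels 0)]

theorem log_det_le_trace {c : ℝ} (hc : 0 < c) {X : Matrix (Fin n) (Fin n) ℝ} (hX : X.PosDef) :
    log X.det ≤ n * log c + (X.trace / c - n) := by
  have h := P150.Fast.logdet_tangent hX (Matrix.PosDef.one.smul hc)
  rw [Matrix.inv_eq_right_inv (show (c • (1 : Matrix (Fin n) (Fin n) ℝ)) * (c⁻¹ • 1) = 1 by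
      simp [smul_smul, hc.ne']), Matrix.det_smul, Matrix.det_one, mul_one, Fintype.card_fin,
    log_pow] at h
  simp only [Matrix.smul_mul, Matrix.one_mul, Matrix.trace_smul, Matrix.trace_sub,
    Matrix.trace_one, Fintype.card_fin, smul_eq_mul] at h
  refine h.trans_eq ?_
  field_simp

theorem zeroEnt_nonpos {τ : ℝ} (hτ : 0 < τ) {X : Matrix (Fin n) (Fin n) ℝ} (hX : X.PosDef) :
    zeroEnt τ X ≤ 0 := by
  have := log_det_le_trace hτ hX
  simp only [zeroEnt]
  linarith

/-- A bound below on the entropy of the zero path confines a definite matrix. -/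
theorem confine_of_zeroEnt {τ M : ℝ} (hτ : 0 < τ) {X : Matrix (Fin n) (Fin n) ℝ} (hX : X.PosDef)
    (hM : -M ≤ zeroEnt τ X) :
    mabs X ≤ n * (2 * τ * (n * log 2 + 2 * M)) ∧
      (X - Real.exp (-2 * M + n * (log τ - 1) - 2 * τ * (n * log 2 + 2 * M))
        • (1 : Matrix (Fin n) (Fin n) ℝ)).PosSemidef := by
  set U := 2 * τ * (n * log 2 + 2 * M) with hU
  have h2 := log_det_le_trace (mul_pos two_pos hτ) hX
  rw [log_mul two_ne_zero hτ.ne'] at h2
  simp only [zeroEnt] at hM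
  have hhalf : X.trace / (2 * τ) = X.trace / τ / 2 := by field_simp
  have htr : X.trace ≤ U := by
    have h : X.trace / τ ≤ 2 * (n * log 2 + 2 * M) := by linarith
    rw [div_le_iff₀ hτ] at h
    linarith
  refine ⟨(mabs_le_trace hX.posSemidef).trans (mul_le_mul_of_nonneg_left htr (Nat.cast_nonneg n)),
    ?_⟩
  obtain ⟨V, x, hVV, hVV', hXe, hx, hdet⟩ := exists_diag hX
  have htrx : X.trace = ∑ j, x j := by
    rw [hXe, Matrix.trace_mul_comm, ← Matrix.mul_assoc, hVV, Matrix.one_mul, Matrix.trace_diagonal]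
  set κ := Real.exp (-2 * M + n * (log τ - 1) - U) with hκ
  have hxκ : ∀ j, κ ≤ x j := fun j => by
    rw [← Real.exp_log (hx j), hκ, Real.exp_le_exp]
    have h3 : log X.det = log (x j) + ∑ i ∈ univ.erase j, log (x i) := by
      rw [hdet, Real.log_prod fun i _ => (hx i).ne']
      exact (Finset.add_sum_erase _ _ (mem_univ j)).symm
    have h4 : ∑ i ∈ univ.erase j, log (x i) ≤ ∑ i, x i :=
      (Finset.sum_le_sum fun i _ => (Real.log_le_sub_one_of_pos (hx i)).trans (by linarith)).trans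
        (Finset.sum_le_sum_of_subset_of_nonneg (Finset.subset_univ _) fun i _ _ => (hx i).le)
    have h5 : 0 ≤ X.trace / τ :=
      div_nonneg (htrx ▸ Finset.sum_nonneg fun i _ => (hx i).le) hτ.le
    linarith
  have e : X - κ • 1 = V * diagonal (fun j => x j - κ) * V.transpose := by
    rw [← Matrix.diagonal_sub, Matrix.mul_sub, Matrix.sub_mul, ← hXe, ← Matrix.smul_one_eq_diagonal]
    simp [hVV']
  rw [e]
  have h := (Matrix.PosSemidef.diagonal fun j => sub_nonneg.2 (hxκ j)).mul_mul_conjTranspose_same V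
  rwa [conjTranspose_eq_transpose_of_trivial] at h

end Zero

section Values

variable {τ A C κ L : ℝ} {γ : Fin d → ℝ} {f g : (Fin d → ℝ) → ℝ} {dd : OIdx d → ℝ}

theorem posDef_typD (hγ : ∀ k, 0 < γ k ∧ γ k ≤ 1) (hκ : 0 < κ) (hd : GoodCentre γ κ L dd)
    {t : Finset (Fin d)} (ho : Occupied γ t) : (typD γ dd t).PosDef := by
  have h := Matrix.PosDef.posSemidef_add (typD_posDef hκ hγ hd ho)
    (Matrix.PosDef.one.smul (div_pos hκ (tfrac_pos hγ ho)))
  simpa using h

theorem tfrac_mul_zero (hγ : ∀ k, 0 < γ k ∧ γ k ≤ 1) {t : Finset (Fin d)} (ho : ¬Occupied γ t)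
    (τ : ℝ) (X : Matrix (Fin t.card) (Fin t.card) ℝ) :
    tfrac γ t * zeroEnt τ X = 0 ∧
      ∀ r q, tfrac γ t * ent (gridM r) r τ X q = 0 := by
  rcases t.eq_empty_or_nonempty with rfl | hne
  · have h0 : ∀ X : Matrix (Fin (∅ : Finset (Fin d)).card) (Fin (∅ : Finset (Fin d)).card) ℝ,
        X.trace = 0 ∧ log X.det = 0 := fun X => by
      have he : IsEmpty (Fin (∅ : Finset (Fin d)).card) := ⟨fun b => absurd b.isLt (by simp)⟩
      exact ⟨Finset.sum_eq_zero fun b _ => he.elim b, by rw [Matrix.det_isEmpty, log_one]⟩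
    refine ⟨mul_eq_zero_of_right _ ?_, fun r q => mul_eq_zero_of_right _ ?_⟩
    · simp only [zeroEnt, (h0 X).1, (h0 X).2]
      simp
    · simp only [ent, levelSum, fun X => (h0 X).1, fun X => (h0 X).2]
      simp
  · simp [tfrac_eq_zero hγ hne ho]

variable (hγ : ∀ k, 0 < γ k ∧ γ k ≤ 1) (hκ : 0 < κ) (hd : GoodCentre γ κ L dd) (hA : 0 ≤ A)
  (hf : Measurable f) (hup : ∀ y, f y ≤ C) (hlo : ∀ y, -(A * (1 + ∑ k, y k ^ 2)) ≤ f y)
include hγ hκ hd hA hf hup hlo

/-- The values are bounded below. -/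
theorem bddBelow_quad : BddBelow (valSet τ f γ 1 dd) := by
  refine ⟨-(A * (1 + (dTot dd).trace)) + ∑ t, tfrac γ t * zeroEnt τ (typD γ dd t), ?_⟩
  rintro _ ⟨r, q, hq, rfl⟩
  rw [pathVal, one_mul]
  refine add_le_add (rowVal_low hA hf hup hlo (qTot_isPath hγ hq.path) (qTot_top hγ hd.1 hq))
    (Finset.sum_le_sum fun t _ => ?_)
  by_cases ho : Occupied γ t
  · exact mul_le_mul_of_nonneg_left (ent_zero_le (gridM_levels r) τ (posDef_typD hγ hκ hd ho)
      (hq.path t ho) (hq.top t ho)) (tfrac_nonneg γ t)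
  · rw [(tfrac_mul_zero hγ ho τ _).1, (tfrac_mul_zero hγ ho τ _).2]

/-- The zero paths bound the value. -/
theorem gVal_zero_le :
    gVal τ f γ 1 dd ≤ C + ∑ t, tfrac γ t * zeroEnt τ (typD γ dd t) := by
  have hadm : Formula.Adm γ dd 0 (fun _ _ => 0) :=
    ⟨fun t _ => ⟨Matrix.PosSemidef.zero, fun l hl => absurd hl (Nat.not_lt_zero l)⟩,
      fun t ht => by simpa using posDef_typD hγ hκ hd ht⟩
  refine (csInf_le (bddBelow_quad hγ hκ hd hA hf hup hlo) ⟨0, _, hadm, rfl⟩).trans ?_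
  simp only [pathVal, one_mul, ent_zero]
  exact add_le_add (rowVal_up hA hf hup hlo) le_rfl

omit hA hf hup hlo in
theorem zeroEnt_term_nonpos (hτ : 0 < τ) (t : Finset (Fin d)) :
    tfrac γ t * zeroEnt τ (typD γ dd t) ≤ 0 := by
  by_cases ho : Occupied γ t
  · exact mul_nonpos_of_nonneg_of_nonpos (tfrac_nonneg γ t)
      (zeroEnt_nonpos hτ (posDef_typD hγ hκ hd ho))
  · rw [(tfrac_mul_zero hγ ho τ _).1]

theorem gVal_le (hτ : 0 < τ) : gVal τ f γ 1 dd ≤ C :=
  (gVal_zero_le hγ hκ hd hA hf hup hlo).trans (add_le_of_nonpos_right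
    (Finset.sum_nonpos fun t _ => zeroEnt_term_nonpos hγ hκ hd hτ t))

theorem gVal_mono (hg : Measurable g) (hgC : ∀ y, g y ≤ C) (hfg : ∀ y, f y ≤ g y) :
    gVal τ f γ 1 dd ≤ gVal τ g γ 1 dd := by
  refine le_csInf (valSet_nonempty hγ hκ hd) ?_
  rintro _ ⟨r, q, hq, rfl⟩
  refine (csInf_le (bddBelow_quad hγ hκ hd hA hf hup hlo) ⟨r, q, hq, rfl⟩).trans ?_
  simp only [pathVal, one_mul]
  exact add_le_add (rowVal_mono hA hf hg hgC hlo hfg) le_rfl

end Values

section Confine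

variable {τ A : ℝ} {γ : Fin d → ℝ}

/-- The tables of large value lie in one compact family of definite tables. -/
theorem confine (hγ : ∀ k, 0 < γ k ∧ γ k ≤ 1) (hτ : 0 < τ) (hA : 0 ≤ A) (C v : ℝ) :
    ∃ κ L, 0 < κ ∧ ∀ (f : (Fin d → ℝ) → ℝ), Measurable f → (∀ y, f y ≤ C) →
      (∀ y, -(A * (1 + ∑ k, y k ^ 2)) ≤ f y) → ∀ dd ∈ centres γ, v ≤ gVal τ f γ 1 dd →
        GoodCentre γ κ L dd := by
  classical
  set M : Finset (Fin d) → ℝ := fun t => (C - v) / tfrac γ t with hMdef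
  set kt : Finset (Fin d) → ℝ := fun t => if Occupied γ t then
    tfrac γ t * Real.exp (-2 * M t + t.card * (log τ - 1)
      - 2 * τ * (t.card * log 2 + 2 * M t)) else 1 with hkt
  set Lt : Finset (Fin d) → ℝ := fun t =>
    |(t.card : ℝ) * (2 * τ * (t.card * log 2 + 2 * M t))|
  have hktpos : ∀ t, 0 < kt t := fun t => by
    simp only [hkt]
    split_ifs with h
    · exact mul_pos (tfrac_pos hγ h) (Real.exp_pos _)
    · exact one_pos
  refine ⟨univ.inf' univ_nonempty kt, ∑ t, Lt t, (Finset.lt_inf'_iff _).2 fun t _ => hktpos t,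
    fun f hf hup hlo dd hdd hv => ?_⟩
  obtain ⟨κ0, L0, hκ0, hd⟩ := hdd
  have hterm : ∀ t, Occupied γ t → -M t ≤ zeroEnt τ (typD γ dd t) := fun t ho => by
    have h1 := hv.trans (gVal_zero_le hγ hκ0 hd hA hf hup hlo)
    rw [← Finset.add_sum_erase _ _ (mem_univ t)] at h1
    have h2 : ∑ s ∈ univ.erase t, tfrac γ s * zeroEnt τ (typD γ dd s) ≤ 0 :=
      Finset.sum_nonpos fun s _ => zeroEnt_term_nonpos hγ hκ0 hd hτ s
    rw [hMdef, ← neg_div, div_le_iff₀ (tfrac_pos hγ ho)]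
    linarith
  have hX := fun t ho => confine_of_zeroEnt hτ (posDef_typD hγ hκ0 hd ho) (hterm t ho)
  have hentry : ∀ t, Occupied γ t → ∀ b b', dd (t, comp t b, comp t b')
      = tfrac γ t * typD γ dd t b b' := fun t ho b b' => by
    simp [typD, tmat, ← mul_assoc, mul_inv_cancel₀ (tfrac_pos hγ ho).ne']
  refine ⟨hd.1, fun i => ?_, fun t ho w hw => ?_⟩
  · obtain ⟨t, k, l⟩ := i
    have hL : 0 ≤ ∑ t, Lt t := Finset.sum_nonneg fun t _ => abs_nonneg _
    by_cases h : Occupied γ t ∧ k ∈ t ∧ l ∈ t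
    · obtain ⟨b, rfl⟩ := exists_comp h.2.1
      obtain ⟨b', rfl⟩ := exists_comp h.2.2
      rw [hentry t h.1, abs_mul, abs_of_nonneg (tfrac_nonneg γ t)]
      refine (mul_le_of_le_one_left (abs_nonneg _) (tfrac_le_one γ t)).trans ?_
      refine ((abs_entry_le_mabs _ b b').trans ((hX t h.1).1.trans (le_abs_self _))).trans ?_
      exact Finset.single_le_sum (f := Lt) (fun t _ => abs_nonneg _) (mem_univ t)
    · rw [hd.1.2 t k l h, abs_zero]
      exact hL
  · have hs : ∀ F : Fin d → ℝ, (∀ k ∉ t, F k = 0) → ∑ k, F k = ∑ b, F (comp t b) :=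
      fun F hF => by
        rw [← Casc.sum_comp_eq t F,
          ← Finset.sum_subset (Finset.subset_univ t) fun k _ hk => hF k hk]
    have hin : ∀ k, ∑ l, w k * w l * dd (t, k, l)
        = ∑ b, w k * w (comp t b) * dd (t, k, comp t b) :=
      fun k => hs _ fun l hl => by simp [hw l hl]
    simp only [hin]
    rw [hs (fun k => w k ^ 2) (fun k hk => by simp [hw k hk]),
      hs (fun k => ∑ b, w k * w (comp t b) * dd (t, k, comp t b)) (fun k hk => by simp [hw k hk])]
    simp only [hentry t ho]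
    set x : Fin t.card → ℝ := fun b => w (comp t b)
    have hq := (hX t ho).2.dotProduct_mulVec_nonneg x
    simp only [star_trivial, Matrix.sub_mulVec, Matrix.smul_mulVec, Matrix.one_mulVec,
      dotProduct_sub, dotProduct_smul, smul_eq_mul, sub_nonneg] at hq
    refine (mul_le_mul_of_nonneg_right (Finset.inf'_le kt (mem_univ t))
      (Finset.sum_nonneg fun b _ => sq_nonneg _)).trans ?_
    simp only [hkt, if_pos ho]
    rw [mul_assoc]
    refine ((mul_le_mul_of_nonneg_left (le_trans (le_of_eq ?_) hq) (tfrac_nonneg γ t))).trans_eq ?_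
    · simp [x, dotProduct, pow_two]
    · simp only [x, dotProduct, Matrix.mulVec, Finset.mul_sum]
      exact Finset.sum_congr rfl fun b _ => Finset.sum_congr rfl fun b' _ => by ring

end Confine

section Limit

variable {τ : ℝ} {γ : Fin d → ℝ}

theorem tendsto_typD {F : ℕ → OIdx d → ℝ} {dd : OIdx d → ℝ} (hF : Tendsto F atTop (𝓝 dd))
    (t : Finset (Fin d)) :
    Tendsto (fun i => typD γ (F i) t) atTop (𝓝 (typD γ dd t)) := by
  have hc : Continuous fun e : OIdx d → ℝ => typD γ e t := by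
    unfold typD tmat
    fun_prop
  exact (hc.tendsto dd).comp hF

/-- A path admissible at the limit is admissible nearby. -/
theorem adm_eventually {F : ℕ → OIdx d → ℝ} {dd : OIdx d → ℝ} (hF : Tendsto F atTop (𝓝 dd))
    (hc : ∀ i, Clean γ (F i)) (hdd : Clean γ dd) {r : ℕ} {q : TPath d} (hq : Formula.Adm γ dd r q) :
    ∀ᶠ i in atTop, Formula.Adm γ (F i) r q := by
  have h : ∀ t, ∀ᶠ i in atTop, Occupied γ t → (typD γ (F i) t - q t r).PosDef := fun t => by
    by_cases ho : Occupied γ t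
    swap
    · exact Eventually.of_forall fun i h => absurd h ho
    set Y := typD γ dd t - q t r with hY
    have hYp : Y.PosDef := hq.top t ho
    set U := mabs Y⁻¹ + 1
    have hU : 0 < U := by
      have := Casc.mabs_nonneg Y⁻¹
      positivity
    have hc0 := inv_sub_psd hYp.inv hU
      (mabs_sub_psd hYp.inv.isHermitian (le_add_of_nonneg_right zero_le_one))
    rw [Matrix.nonsing_inv_nonsing_inv _ (isUnit_iff_ne_zero.2 hYp.det_pos.ne')] at hc0
    have hd0 : Tendsto (fun i => mabs (typD γ (F i) t - typD γ dd t)) atTop (𝓝 0) := by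
      have h1 := ((by unfold Casc.mabs; fun_prop : Continuous fun M : Matrix (Fin t.card)
        (Fin t.card) ℝ => mabs M).tendsto _).comp ((tendsto_typD (γ := γ) hF t).sub_const (typD γ dd t))
      simpa [Function.comp_def, Formula.mabs_zero] using h1
    filter_upwards [hd0.eventually_le_const (half_pos (inv_pos.2 hU))] with i hi _
    have hsym : ∀ {e : OIdx d → ℝ}, Clean γ e → (typD γ e t).IsHermitian := fun {e} he =>
      Matrix.IsHermitian.ext fun b b' => by simp [typD, tmat, he.1 t (comp t b) (comp t b')]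
    have h2 := sub_smul_one_psd ((hsym (hc i)).sub (hsym hdd)) hi
    have h3 := Matrix.PosDef.posSemidef_add (hc0.add h2)
      (Matrix.PosDef.one.smul (half_pos (inv_pos.2 hU)))
    convert h3 using 1
    rw [hY, show U⁻¹ • (1 : Matrix (Fin t.card) (Fin t.card) ℝ)
      = (U⁻¹ / 2) • 1 + (U⁻¹ / 2) • 1 by rw [← add_smul, add_halves]]
    abel
  filter_upwards [eventually_all.2 h] with i hi
  exact ⟨hq.path, hi⟩

/-- The entropy of a fixed path is continuous in the self-overlap. -/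
theorem tendsto_ent (τ : ℝ) {r : ℕ} {q : ℕ → Matrix (Fin n) (Fin n) ℝ} (hq : IsPath r q)
    {X : ℕ → Matrix (Fin n) (Fin n) ℝ} {D : Matrix (Fin n) (Fin n) ℝ}
    (hX : Tendsto X atTop (𝓝 D)) (hD : (D - q r).PosDef) :
    Tendsto (fun i => ent (gridM r) r τ (X i) q) atTop (𝓝 (ent (gridM r) r τ D q)) := by
  have hne : ∀ l ≤ r, (tT (gridM r) r D q l).det ≠ 0 := fun l hl =>
    (tT_posDef (gridM_levels r) hq hD l hl).det_pos.ne'
  have hT : ∀ l, Tendsto (fun i => tT (gridM r) r (X i) q l) atTop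
      (𝓝 (tT (gridM r) r D q l)) := fun l => hX.sub_const _
  have hdet : ∀ l, Tendsto (fun i => (tT (gridM r) r (X i) q l).det) atTop
      (𝓝 (tT (gridM r) r D q l).det) := fun l =>
    ((continuous_id.matrix_det).tendsto _).comp (hT l)
  have hinv : Tendsto (fun i => (tT (gridM r) r (X i) q 0)⁻¹) atTop
      (𝓝 (tT (gridM r) r D q 0)⁻¹) := by
    simp only [Matrix.inv_def, Ring.inverse_eq_inv']
    exact ((hdet 0).inv₀ (hne 0 (Nat.zero_le r))).smul
      (((continuous_id.matrix_adjugate).tendsto _).comp (hT 0))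
  have hlog : ∀ l ≤ r, Tendsto (fun i => log (tT (gridM r) r (X i) q l).det) atTop
      (𝓝 (log (tT (gridM r) r D q l).det)) := fun l hl => (hdet l).log (hne l hl)
  simp only [ent, levelSum]
  refine (((((tendsto_finsetSum _ fun l hl => ((hlog (l + 1) (Finset.mem_range.1 hl)).sub
    (hlog l (Finset.mem_range.1 hl).le)).const_mul _).sub (hlog r le_rfl)).neg.add ?_).sub
      (((continuous_id.matrix_trace).tendsto _).comp hX |>.div_const τ)).add_const _).const_mul _
  exact ((continuous_id.matrix_trace).tendsto _).comp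
    ((tendsto_const_nhds (x := q 0)).mul hinv)

end Limit

theorem centres_nonempty (γ : Fin d → ℝ) : (centres γ).Nonempty := by
  classical
  refine ⟨fun i => if Occupied γ i.1 ∧ i.2.1 ∈ i.1 ∧ i.2.1 = i.2.2 then 1 else 0, 1, 1, one_pos,
    ⟨fun t k l => ?_, fun t k l h => if_neg fun h' : Occupied γ t ∧ k ∈ t ∧ k = l => h ⟨h'.1, h'.2.1, h'.2.2 ▸ h'.2.1⟩⟩,
    fun i => ?_, fun t ho v hv => le_of_eq ?_⟩
  · by_cases h : k = l
    · rw [h]
    · simp [h, Ne.symm h]
  · simp only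
    split_ifs <;> simp
  · rw [one_mul]
    refine Finset.sum_congr rfl fun k _ => ?_
    by_cases hk : k ∈ t
    · simp [ho, hk, Finset.sum_ite_eq, pow_two]
    · simp [hv k hk]

/-- The cut disappears from the variational value. -/
theorem supInf_untrunc {τ A C : ℝ} (hτ : 0 < τ) (hA : 0 ≤ A) {γ : Fin d → ℝ}
    (hγ : ∀ k, γ k ∈ Set.Ioo (0 : ℝ) 1) {f : (Fin d → ℝ) → ℝ} (hf : Continuous f)
    (hup : ∀ y, f y ≤ C) (hlo : ∀ y, -(A * (1 + ∑ k, y k ^ 2)) ≤ f y) {l : ℝ}
    (hl : Tendsto (fun R => supInf τ (trunc C R f) γ) atTop (𝓝 l)) :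
    (∀ dd ∈ centres γ, BddBelow (valSet τ f γ 1 dd)) ∧ IsLUB (gVal τ f γ 1 '' centres γ) l := by
  have hγ' : ∀ k, 0 < γ k ∧ γ k ≤ 1 := fun k => ⟨(hγ k).1, (hγ k).2.le⟩
  have hfm := hf.measurable
  have hRm : ∀ R > (0 : ℝ), Measurable (trunc C R f) ∧ (∀ y, trunc C R f y ≤ C) ∧
      ∀ y, -(A * (1 + ∑ k, y k ^ 2)) ≤ trunc C R f y := fun R hR =>
    ⟨(continuous_trunc hf).measurable, trunc_le hR hup,
      fun y => (hlo y).trans (le_trunc hR y)⟩
  have hbdd : ∀ R > (0 : ℝ), BddAbove (gVal τ (trunc C R f) γ 1 '' centres γ) := fun R hR => by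
    refine ⟨C, ?_⟩
    rintro _ ⟨dd, ⟨κ, L, hκ, hd⟩, rfl⟩
    exact gVal_le hγ' hκ hd hA (hRm R hR).1 (hRm R hR).2.1 (hRm R hR).2.2 hτ
  refine ⟨fun dd ⟨κ, L, hκ, hd⟩ => bddBelow_quad hγ' hκ hd hA hfm hup hlo, ?_, fun u hu => ?_⟩
  · rintro _ ⟨dd, ⟨κ, L, hκ, hd⟩, rfl⟩
    refine ge_of_tendsto hl ((eventually_gt_atTop 0).mono fun R hR => ?_)
    exact (gVal_mono hγ' hκ hd hA hfm hup hlo (hRm R hR).1 (hRm R hR).2.1 (le_trunc hR)).trans
      (le_csSup (hbdd R hR) ⟨dd, ⟨κ, L, hκ, hd⟩, rfl⟩)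
  -- near maximisers of the cuts
  set R : ℕ → ℝ := fun i => (i : ℝ) + 1 with hRdef
  have hR : ∀ i, 0 < R i := fun i => by positivity
  have hRt : Tendsto R atTop atTop := tendsto_atTop_add_const_right _ 1 tendsto_natCast_atTop_atTop
  set v : ℕ → ℝ := fun i => supInf τ (trunc C (R i) f) γ - 1 / R i with hvdef
  have hv : Tendsto v atTop (𝓝 l) := by
    simpa using (hl.comp hRt).sub (tendsto_const_nhds.div_atTop hRt)
  have hpick : ∀ i, ∃ dd ∈ centres γ, v i ≤ gVal τ (trunc C (R i) f) γ 1 dd := fun i => by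
    obtain ⟨_, ⟨dd, hdd, rfl⟩, h⟩ := exists_lt_of_lt_csSup
      ((centres_nonempty γ).image _) (show v i < supInf τ (trunc C (R i) f) γ by
        have := one_div_pos.2 (hR i)
        simp only [hvdef]
        linarith)
    exact ⟨dd, hdd, h.le⟩
  choose D hDc hDv using hpick
  obtain ⟨N0, hN0⟩ := eventually_atTop.1 (hv.eventually_const_le (show l - 1 < l by linarith))
  obtain ⟨κ, L, hκ, hconf⟩ := confine hγ' hτ hA C (l - 1)
  have hgood : ∀ i, GoodCentre γ κ L (D (i + N0)) := fun i =>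
    hconf _ (hRm _ (hR _)).1 (hRm _ (hR _)).2.1 (hRm _ (hR _)).2.2 _ (hDc _)
      ((hN0 _ (Nat.le_add_left _ _)).trans (hDv _))
  obtain ⟨dd, hdd, φ, hφ, hlim⟩ := (isCompact_clean γ L).tendsto_subseq
    (x := fun i => D (i + N0)) fun i => ⟨(hgood i).1, (hgood i).2.1⟩
  have hd : GoodCentre γ κ L dd := ⟨hdd.1, hdd.2, fun t ho w hw =>
    ge_of_tendsto (((by fun_prop : Continuous fun e : OIdx d → ℝ =>
      ∑ k, ∑ l, w k * w l * e (t, k, l)).tendsto dd).comp hlim)
      (Eventually.of_forall fun i => (hgood (φ i)).2.2 t ho w hw)⟩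
  refine le_trans (le_csInf (valSet_nonempty hγ' hκ hd) ?_) (hu ⟨dd, ⟨κ, L, hκ, hd⟩, rfl⟩)
  rintro _ ⟨r, q, hq, rfl⟩
  obtain ⟨N1, hN1⟩ := eventually_atTop.1 (adm_eventually hlim (fun i => (hgood (φ i)).1) hd.1 hq)
  have hadm : ∀ i, Formula.Adm γ (D (φ (i + N1) + N0)) r q := fun i => hN1 _ (Nat.le_add_left _ _)
  have hidx : Tendsto (fun i => φ (i + N1) + N0) atTop atTop :=
    (tendsto_add_atTop_nat N0).comp (hφ.tendsto_atTop.comp (tendsto_add_atTop_nat N1))
  have hDlim : Tendsto (fun i => D (φ (i + N1) + N0)) atTop (𝓝 dd) :=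
    hlim.comp (tendsto_add_atTop_nat N1)
  obtain ⟨ψ, hψ, hrow⟩ := rowVal_tendsto (D := dTot dd) (q := qTot γ q) (K := r) (C := C) (g := f)
    hA (fn := fun i => trunc C (R (φ (i + N1) + N0)) f) (fun i => (hRm _ (hR _)).1)
    (fun i => (hRm _ (hR _)).2.1) (fun i => (hRm _ (hR _)).2.2) hfm hup
    (fun w w0 ψ hψ hw => trunc_tendsto hup hf (fun i => hR _)
      (hRt.comp (hidx.comp hψ.tendsto_atTop)) hw)
    (Dn := fun i => dTot (D (φ (i + N1) + N0)))
    (((by unfold dTot; fun_prop : Continuous fun e : OIdx d → ℝ => dTot e).tendsto dd).comp hDlim)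
    (fun i => qTot_top hγ' (hgood _).1 (hadm i)) (qTot_top hγ' hd.1 hq)
  have hent : Tendsto (fun i => ∑ t, tfrac γ t
      * ent (gridM r) r τ (typD γ (D (φ (ψ i + N1) + N0)) t) (q t)) atTop
      (𝓝 (∑ t, tfrac γ t * ent (gridM r) r τ (typD γ dd t) (q t))) := by
    refine tendsto_finsetSum _ fun t _ => ?_
    by_cases ho : Occupied γ t
    · exact (tendsto_ent τ (hq.path t ho) (tendsto_typD (hDlim.comp hψ.tendsto_atTop) t)
        (hq.top t ho)).const_mul _
    · simp only [fun X => (tfrac_mul_zero hγ' ho τ X).2 r (q t)]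
      exact tendsto_const_nhds
  refine le_of_tendsto_of_tendsto' (hv.comp (hidx.comp hψ.tendsto_atTop))
    ((hrow.const_mul 1).add hent) fun i => (hDv _).trans (csInf_le ?_ ⟨r, q, hadm (ψ i), rfl⟩)
  exact bddBelow_quad hγ' hκ (hgood _) hA (hRm _ (hR _)).1 (hRm _ (hR _)).2.1 (hRm _ (hR _)).2.2

end Vale.Agent.P166.Main
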