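import Vale.Agent.P166.Main.Limit
import Vale.Agent.P166.Main.Untrunc
import Vale.Agent.P166.Main.Quad

/-!
P166: the limiting pressure as the limit of explicit variational values.
-/

open MeasureTheory ProbabilityTheory Filter Topology Finset

namespace Vale.Agent.P166.Main

open Vale.Agent.P166 Vale.Agent.P166.Nested Vale.Agent.P166.Pen Vale.Agent.P166.Formula

/-- The variational value of the grid of `n + 1` steps. -/
noncomputable def gridVal (μ : Measure ℝ) (a b β : ℝ) (n : ℕ) : ℝ :=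
  β * (a + mesh a b n * full μ a b n) / 2 +
      flatSup (pot fun _ => β * mesh a b n) (frac μ a b n) +
    ∑ k, (frac μ a b n k / 2 * Real.log (β * mesh a b n) - frac μ a b n k / 2 -
      (1 - frac μ a b n k) / 2 * Real.log (1 - frac μ a b n k))

theorem pot_const_le {d : ℕ} {c : ℝ} (hc : 0 ≤ c) (y : Fin d → ℝ) :
    pot (fun _ => c) y ≤ d * c - c / 2 * ∑ k, y k ^ 2 / 2 := by
  have h1 : Real.log (Real.cosh (∑ k, c * y k)) ≤ |∑ k, c * y k| := by
    rw [Real.log_le_iff_le_exp (Real.cosh_pos _), Real.cosh_eq]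
    linarith [Real.exp_le_exp.2 (le_abs_self (∑ k, c * y k)),
      Real.exp_le_exp.2 (neg_le_abs (∑ k, c * y k))]
  have h2 : ∀ k, c * |y k| ≤ c + c * y k ^ 2 / 4 := fun k => by
    nlinarith [mul_nonneg hc (sq_nonneg (|y k| - 2)), sq_abs (y k)]
  have h3 := h1.trans ((abs_sum_le_sum_abs _ _).trans (Finset.sum_le_sum fun k _ =>
    show |c * y k| ≤ c + c * y k ^ 2 / 4 by rw [abs_mul, abs_of_nonneg hc]; exact h2 k))
  rw [Finset.sum_add_distrib, Finset.sum_const, Finset.card_univ, Fintype.card_fin, nsmul_eq_mul]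
    at h3
  have e1 : ∑ k, c * y k ^ 2 / 4 = c / 2 * ∑ k, y k ^ 2 / 2 := by
    rw [Finset.mul_sum]; exact Finset.sum_congr rfl fun k _ => by ring
  have e2 : ∑ k, c * y k ^ 2 / 2 = 2 * (c / 2 * ∑ k, y k ^ 2 / 2) := by
    rw [Finset.mul_sum, Finset.mul_sum]; exact Finset.sum_congr rfl fun k _ => by ring
  simp only [pot]
  linarith

/-- The values of the cuts of a coupled potential converge, also without components. -/
theorem pot_limit (hF : FreeFormula) {d : ℕ} {τ : ℝ} (hτ : 0 < τ) {c γ : Fin d → ℝ}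
    (hc : ∀ k, 0 < c k) (hγ : ∀ k, γ k ∈ Set.Ioo (0 : ℝ) 1) :
    ∃ l, Tendsto (fun R => supInf τ (trunc ((∑ k, c k) / 2 + ∑ k, c k ^ 2) R (pot c)) γ) atTop
      (𝓝 l) := by
  rcases Nat.eq_zero_or_pos d with rfl | hd
  · refine ⟨0, ?_⟩
    have hz : ∀ R, trunc ((∑ k, c k) / 2 + ∑ k, c k ^ 2) R (pot c) = fun _ : Fin 0 → ℝ => (0 : ℝ) :=
      fun R => by funext y; simp [trunc, pot, Real.cosh_zero]
    simp only [hz, supInf_empty rfl τ γ]
    exact tendsto_const_nhds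
  · exact (cut_limit hF hd hτ (Finset.sum_nonneg fun k _ => (hc k).le)
      (add_nonneg (div_nonneg (Finset.sum_nonneg fun k _ => (hc k).le) zero_le_two)
        (Finset.sum_nonneg fun k _ => sq_nonneg _)) hγ (continuous_pot c)
      (fun y => (pot_bounds hc y).1) (fun y => (pot_bounds hc y).2) (tendsto_pot hc)).imp fun _ h => h.2

/-- The cut disappears and so does the prior variance. -/
theorem tendsto_flat {d : ℕ} {γ : Fin d → ℝ} (hγ : ∀ k, γ k ∈ Set.Ioo (0 : ℝ) 1)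
    {f : (Fin d → ℝ) → ℝ} (hf : Continuous f) {A C a C' : ℝ} (hA : 0 ≤ A) (hC : 0 ≤ C) (ha : 0 < a)
    (hup : ∀ y, f y ≤ C) (hlo : ∀ y, -(A * (1 + ∑ k, y k ^ 2)) ≤ f y)
    (hq : ∀ y, f y ≤ C' - a * ∑ k, y k ^ 2 / 2) {l : ℝ → ℝ}
    (hl : ∀ τ, 0 < τ → Tendsto (fun R => supInf τ (trunc C R f) γ) atTop (𝓝 (l τ))) :
    Tendsto (fun τ => l τ + (∑ k, γ k) * Real.log τ / 2) atTop (𝓝 (flatSup f γ)) := by
  have hγ' : ∀ k, 0 < γ k ∧ γ k ≤ 1 := fun k => ⟨(hγ k).1, (hγ k).2.le⟩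
  have h := fun τ (hτ : 0 < τ) => supInf_untrunc hτ hA hγ hf hup hlo (hl τ hτ)
  obtain ⟨M, hM⟩ := flatVal_le hγ' ha hf hq (h 1 one_pos).1
  exact tendsto_flatSup hγ' (fun τ hτ => (h τ hτ).1) (fun τ hτ => (h τ hτ).2) hM

/-- The pressure tends to the limit of the variational values of the grids. -/
theorem flat_formula (hF : FreeFormula) {μ : Measure ℝ} [IsProbabilityMeasure μ] {a b β : ℝ}
    (hμ : ∀ᵐ x ∂μ, x ∈ Set.Icc a b) (he : ∀ η, 0 < η → 0 < μ (Set.Ioi (b - η))) (hβ : 0 < β) :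
    ∃ L : ℝ, Tendsto (gridVal μ a b β) atTop (𝓝 L) ∧
      ∀ (law : ∀ N : ℕ, Measure (Fin N → Fin N → ℝ)),
        (∀ N, IsProbabilityMeasure (law N)) → (∀ N, LeftInv (law N)) →
        ∀ (R : ℝ) (lam : ∀ N : ℕ, Fin N → ℝ), Spec μ b R lam →
          Tendsto (fun N => ∫ U, (pr β (lam N) U - L) ^ 2 ∂law N) atTop (𝓝 0) := by
  obtain ⟨x₀, hx₀⟩ := hμ.exists
  have hab : a ≤ b := hx₀.1.trans hx₀.2
  obtain ⟨L, Ln, F, hpsi, hFn, hLn, hmain⟩ := limit_formula hF hμ he hβ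
  refine ⟨L, hLn.congr fun n => ?_, hmain⟩
  set h := mesh a b n
  set K := (active μ a b n).card with hK
  let γ : Fin K → ℝ := frac μ a b n
  set c : ℝ := β * h
  have hc : 0 < c := mul_pos hβ (mesh_pos hab n)
  have hγ : ∀ k, γ k ∈ Set.Ioo (0 : ℝ) 1 := fun k => frac_mem (μ := μ) (a := a) (b := b) n k
  set f : (Fin K → ℝ) → ℝ := pot fun _ => c
  set C := (∑ _k : Fin K, c) / 2 + ∑ _k : Fin K, c ^ 2
  have hcs : (0 : ℝ) ≤ ∑ _k : Fin K, c := Finset.sum_nonneg fun _ _ => hc.le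
  have hpot : ∀ τ, 0 < τ → ∃ l, Tendsto (fun R => supInf τ (trunc C R f) γ) atTop (𝓝 l) :=
    fun τ hτ => pot_limit hF hτ (fun _ => hc) hγ
  choose lp hlp using hpot
  choose lq hlq using fun (τ : ℝ) (hτ : 0 < τ) (k : Fin K) =>
    (cut_limit_quad hF hc hτ (hγ k)).imp fun _ h => h.2
  set lp' : ℝ → ℝ := fun τ => if hτ : 0 < τ then lp τ hτ else 0
  set lq' : Fin K → ℝ → ℝ := fun k τ => if hτ : 0 < τ then lq τ hτ k else 0
  have hp := tendsto_flat (l := lp') hγ (continuous_pot fun _ : Fin K => c) (A := ∑ _k : Fin K, c)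
    (C := C) (C' := K * c) hcs (add_nonneg (div_nonneg hcs zero_le_two)
      (Finset.sum_nonneg fun _ _ => sq_nonneg c)) (half_pos hc)
    (fun y => (pot_bounds (fun _ => hc) y).1) (fun y => (pot_bounds (fun _ => hc) y).2)
    (fun y => pot_const_le hc.le y) fun τ hτ => by simpa only [lp', dif_pos hτ] using hlp τ hτ
  have hq : ∀ k, Tendsto (fun τ => lq' k τ + γ k * Real.log τ / 2) atTop
      (𝓝 (flatSup (quad c) fun _ : Fin 1 => γ k)) := fun k => by
    have := tendsto_flat (l := lq' k) (f := quad c) (γ := fun _ : Fin 1 => γ k) (fun _ => hγ k)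
      (by unfold quad; fun_prop) (A := c) (C := 0) (C' := 0) hc.le le_rfl hc
      (fun y => neg_nonpos.2 (by positivity))
      (fun y => by simp only [quad, Fin.sum_univ_one]; nlinarith [sq_nonneg (y 0)])
      (fun y => by simp only [quad, Fin.sum_univ_one]; linarith)
      fun τ hτ => by simpa only [lq', dif_pos hτ] using hlq τ hτ k
    simpa using this
  set t0 := β * (a + h * full μ a b n)
  have hF' : ∀ τ, 0 < τ → F n τ = t0 / 2 + lp' τ - ∑ k, lq' k τ := fun τ hτ => by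
    refine tendsto_nhds_unique (hpsi n τ hτ) ?_
    simp only [lp', lq', dif_pos hτ]
    exact ((hlp τ hτ).const_add (t0 / 2)).sub (tendsto_finsetSum univ fun k _ => hlq τ hτ k)
  have hlim : Tendsto (F n) atTop (𝓝 (t0 / 2 + flatSup f γ -
      ∑ k : Fin K, flatSup (quad c) fun _ : Fin 1 => γ k)) := by
    refine ((hp.const_add (t0 / 2)).sub (tendsto_finsetSum univ fun k _ => hq k)).congr' ?_
    filter_upwards [eventually_gt_atTop 0] with τ hτ
    rw [hF' τ hτ, Finset.sum_add_distrib, ← Finset.sum_div, ← Finset.sum_mul]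
    ring
  rw [tendsto_nhds_unique (hFn n) hlim]
  simp only [gridVal, sub_eq_add_neg, ← Finset.sum_neg_distrib]
  refine congrArg _ (Finset.sum_congr rfl fun k _ => ?_)
  rw [flatSup_quad hc (hγ k)]
  simp only [γ, c, h]
  ring_nf

end Vale.Agent.P166.Main
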