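import Vale.Agent.P166.Main.Defs
import Vale.Agent.P166.Formula.PathLip

/-!
P166: the variational value at infinite prior variance, in which the prior disappears.
-/

open MeasureTheory ProbabilityTheory Filter Topology Finset Real
open Matrix hiding comp

namespace Vale.Agent.P166.Main

open Vale.Agent.P166 Vale.Agent.P166.Pen Vale.Agent.P166.Formula
open Vale.Agent.P166.Casc (comp comp_mem exists_comp sum_comp_eq)
open Vale.Agent.P150.Fast.Dom (arrMap arrMap_apply)
open Vale.Agent.P157.Casc (casc gaus mlev)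
open scoped MatrixOrder

variable {d n : ℕ}

/-- The entropy of an overlap path with self-overlap `D` under a flat prior. -/
noncomputable def flatEnt (r : ℕ) (D : Matrix (Fin n) (Fin n) ℝ)
    (q : ℕ → Matrix (Fin n) (Fin n) ℝ) : ℝ :=
  1 / 2 * (-(levelSum (gridM r) r fun l => log (tT (gridM r) r D q l).det)
    + (q 0 * (tT (gridM r) r D q 0)⁻¹).trace + n)

/-- The value of a family of paths under a flat prior. -/
noncomputable def flatPath (f : (Fin d → ℝ) → ℝ) (γ : Fin d → ℝ) (dd : OIdx d → ℝ) (r : ℕ)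
    (q : TPath d) : ℝ :=
  rowVal f r (dTot dd) (qTot γ q) + ∑ t, tfrac γ t * flatEnt r (typD γ dd t) (q t)

/-- The infimum over the paths at given self-overlaps. -/
noncomputable def flatVal (f : (Fin d → ℝ) → ℝ) (γ : Fin d → ℝ) (dd : OIdx d → ℝ) : ℝ :=
  sInf {v | ∃ r q, Formula.Adm γ dd r q ∧ v = flatPath f γ dd r q}

/-- The variational value: supremum over self-overlaps of infimum over paths. -/
noncomputable def flatSup (f : (Fin d → ℝ) → ℝ) (γ : Fin d → ℝ) : ℝ :=
  sSup (flatVal f γ '' centres γ)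

/-- The sum of all diagonal self-overlaps. -/
noncomputable def diagSum (dd : OIdx d → ℝ) : ℝ := ∑ t, ∑ k, dd (t, k, k)

variable {γ : Fin d → ℝ} {dd : OIdx d → ℝ} {τ : ℝ} {f : (Fin d → ℝ) → ℝ}

theorem ent_eq_flat (r : ℕ) (τ : ℝ) (D : Matrix (Fin n) (Fin n) ℝ)
    (q : ℕ → Matrix (Fin n) (Fin n) ℝ) :
    ent (gridM r) r τ D q = flatEnt r D q - D.trace / (2 * τ) - n * log τ / 2 := by
  simp only [ent, flatEnt]
  ring

/-- Sums over the coordinates of a function of their types. -/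
theorem tendsto_typ_sum (hγ : ∀ k, 0 < γ k ∧ γ k ≤ 1) (F : Finset (Fin d) → ℝ) :
    Tendsto (fun N : ℕ => (∑ j : Fin N, F (typ γ j)) / N) atTop (𝓝 (∑ t, tfrac γ t * F t)) := by
  classical
  have h : ∀ N : ℕ, (∑ j : Fin N, F (typ γ j)) / N
      = ∑ t, ((univ.filter fun j : Fin N => typ γ j = t).card : ℝ) / N * F t := fun N => by
    rw [← Finset.sum_fiberwise univ (fun j : Fin N => typ γ j) fun j => F (typ γ j), Finset.sum_div]
    refine Finset.sum_congr rfl fun t _ => ?_
    rw [Finset.sum_congr rfl fun j hj => by rw [(Finset.mem_filter.1 hj).2], Finset.sum_const,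
      nsmul_eq_mul]
    ring
  simp only [h]
  refine tendsto_finsetSum _ fun t _ => Tendsto.mul_const _ ?_
  refine tendsto_sub_nhds_zero_iff.1 (squeeze_zero_norm' ?_
    (tendsto_one_div_atTop_nhds_zero_nat (𝕜 := ℝ)))
  filter_upwards [eventually_gt_atTop 0] with N hN
  exact (Real.norm_eq_abs _).trans_le (count_typ hγ hN t)

theorem sum_tfrac (hγ : ∀ k, 0 < γ k ∧ γ k ≤ 1) : ∑ t, tfrac γ t = 1 := by
  have h := tendsto_typ_sum hγ fun _ => 1
  simp only [mul_one] at h
  refine tendsto_nhds_unique h (tendsto_const_nhds.congr' ?_)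
  filter_upwards [eventually_gt_atTop 0] with N hN
  have : (N : ℝ) ≠ 0 := by positivity
  simp [this]

theorem sum_tfrac_card (hγ : ∀ k, 0 < γ k ∧ γ k ≤ 1) :
    ∑ t, tfrac γ t * (t.card : ℝ) = ∑ k, γ k := by
  classical
  refine tendsto_nhds_unique (tendsto_typ_sum hγ fun t => (t.card : ℝ)) ?_
  have h : ∀ N : ℕ, ∑ j : Fin N, ((typ γ j).card : ℝ) = ∑ k, (blk γ N k : ℝ) := fun N => by
    simp only [typ, ← Finset.sum_boole]
    rw [Finset.sum_comm]
    refine Finset.sum_congr rfl fun k _ => ?_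
    rw [Finset.sum_boole]
    refine congrArg _ ?_
    have hle : blk γ N k ≤ N :=
      Nat.floor_le_of_le (mul_le_of_le_one_left (Nat.cast_nonneg N) (hγ k).2)
    have e : (univ.filter fun j : Fin N => (j : ℕ) < blk γ N k).map Fin.valEmbedding
        = range (blk γ N k) := by
      ext i
      simp only [Finset.mem_map, Finset.mem_filter, Finset.mem_univ, true_and, Finset.mem_range,
        Fin.valEmbedding_apply]
      exact ⟨fun ⟨j, hj, e⟩ => e ▸ hj, fun hi => ⟨⟨i, hi.trans_le hle⟩, hi, rfl⟩⟩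
    simpa using congrArg Finset.card e
  simp only [h, Finset.sum_div]
  exact tendsto_finsetSum _ fun k _ =>
    (tendsto_nat_floor_mul_div_atTop (hγ k).1.le).comp tendsto_natCast_atTop_atTop

theorem typ_trace (hγ : ∀ k, 0 < γ k ∧ γ k ≤ 1) (hd : Clean γ dd) (t : Finset (Fin d)) :
    tfrac γ t * (typD γ dd t).trace = ∑ k, dd (t, k, k) := by
  have h1 : (tmat dd t).trace = ∑ k, dd (t, k, k) := by
    rw [← Finset.sum_subset (Finset.subset_univ t) fun k _ hk => hd.2 t k k fun h => hk h.2.1,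
      sum_comp_eq t]
    rfl
  rw [typD, Matrix.trace_smul, smul_eq_mul, h1]
  rcases eq_or_ne (tfrac γ t) 0 with h | h
  · rw [h, zero_mul]
    exact (Finset.sum_eq_zero fun k _ =>
      hd.2 t k k fun ho => (tfrac_pos hγ ho.1).ne' h).symm
  · rw [← mul_assoc, mul_inv_cancel₀ h, one_mul]

theorem pathVal_eq_flat (hγ : ∀ k, 0 < γ k ∧ γ k ≤ 1) (hd : Clean γ dd) (r : ℕ) (q : TPath d) :
    pathVal τ f γ 1 dd r q = flatPath f γ dd r q - diagSum dd / (2 * τ) - (∑ k, γ k) * log τ / 2 := by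
  have e : ∀ t, tfrac γ t * ent (gridM r) r τ (typD γ dd t) (q t)
      = tfrac γ t * flatEnt r (typD γ dd t) (q t) - (∑ k, dd (t, k, k)) / (2 * τ)
        - tfrac γ t * (t.card : ℝ) * log τ / 2 := fun t => by
    rw [ent_eq_flat, ← typ_trace hγ hd t]
    ring
  simp only [pathVal, flatPath, one_mul, e, Finset.sum_sub_distrib, ← Finset.sum_div,
    ← Finset.sum_mul, sum_tfrac_card hγ, diagSum]
  ring

theorem flatSet_nonempty (hγ : ∀ k, 0 < γ k ∧ γ k ≤ 1) (hd : dd ∈ centres γ) :
    {v | ∃ r q, Formula.Adm γ dd r q ∧ v = flatPath f γ dd r q}.Nonempty := by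
  obtain ⟨κ, L, hκ, hg⟩ := hd
  obtain ⟨_, r, q, hq, -⟩ := valSet_nonempty (τ := 1) (f := f) (α := 1) hγ hκ hg
  exact ⟨_, r, q, hq, rfl⟩

theorem flatSet_bddBelow (hγ : ∀ k, 0 < γ k ∧ γ k ≤ 1) (hd : dd ∈ centres γ)
    (hb : BddBelow (valSet τ f γ 1 dd)) :
    BddBelow {v | ∃ r q, Formula.Adm γ dd r q ∧ v = flatPath f γ dd r q} := by
  obtain ⟨κ, L, -, hg⟩ := hd
  obtain ⟨c, hc⟩ := hb
  refine ⟨c + diagSum dd / (2 * τ) + (∑ k, γ k) * log τ / 2, ?_⟩
  rintro _ ⟨r, q, hq, rfl⟩
  have := hc ⟨r, q, hq, rfl⟩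
  rw [pathVal_eq_flat hγ hg.1] at this
  linarith

/-- The value at prior variance `τ` is the flat value, shifted. -/
theorem gVal_eq_flat (hγ : ∀ k, 0 < γ k ∧ γ k ≤ 1) (hd : dd ∈ centres γ)
    (hb : BddBelow (valSet τ f γ 1 dd)) :
    gVal τ f γ 1 dd = flatVal f γ dd - diagSum dd / (2 * τ) - (∑ k, γ k) * log τ / 2 := by
  obtain ⟨κ, L, hκ, hg⟩ := id hd
  refine le_antisymm ?_ (le_csInf (valSet_nonempty hγ hκ hg) ?_)
  · have h : gVal τ f γ 1 dd + diagSum dd / (2 * τ) + (∑ k, γ k) * log τ / 2 ≤ flatVal f γ dd := by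
      refine le_csInf (flatSet_nonempty hγ hd) ?_
      rintro _ ⟨r, q, hq, rfl⟩
      have h1 : gVal τ f γ 1 dd ≤ pathVal τ f γ 1 dd r q := csInf_le hb ⟨r, q, hq, rfl⟩
      rw [pathVal_eq_flat hγ hg.1] at h1
      linarith
    linarith
  · rintro _ ⟨r, q, hq, rfl⟩
    rw [pathVal_eq_flat hγ hg.1]
    have : flatVal f γ dd ≤ flatPath f γ dd r q :=
      csInf_le (flatSet_bddBelow hγ hd hb) ⟨r, q, hq, rfl⟩
    linarith

theorem diagSum_nonneg (hd : dd ∈ centres γ) : 0 ≤ diagSum dd := by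
  obtain ⟨κ, L, hκ, hg⟩ := hd
  refine Finset.sum_nonneg fun t _ => Finset.sum_nonneg fun k _ => ?_
  by_cases h : Occupied γ t ∧ k ∈ t ∧ k ∈ t
  · have := hg.2.2 t h.1 (Pi.single k 1) fun l hl =>
      Pi.single_eq_of_ne (fun e => hl (by rw [e]; exact h.2.1)) 1
    simp [Pi.single_apply] at this
    linarith
  · exact (hg.1.2 t k k h).ge

theorem centres_nonempty (γ : Fin d → ℝ) : (centres γ).Nonempty := by
  classical
  refine ⟨fun i => if Occupied γ i.1 ∧ i.2.1 ∈ i.1 ∧ i.2.1 = i.2.2 then 1 else 0, 1, 1, one_pos,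
    ⟨fun t k l => ?_, fun t k l h => ?_⟩, fun i => ?_, fun t ht v hv => ?_⟩
  · by_cases h : k = l
    · rw [h]
    · simp [h, Ne.symm h]
  · exact if_neg fun h' : Occupied γ t ∧ k ∈ t ∧ k = l => h ⟨h'.1, h'.2.1, h'.2.2 ▸ h'.2.1⟩
  · show |ite _ _ _| ≤ (1 : ℝ)
    split <;> simp
  · rw [one_mul]
    refine le_of_eq (Finset.sum_congr rfl fun k _ => ?_)
    by_cases hk : k ∈ t
    · simp [ht, hk, pow_two]
    · simp [hv k hk]

/-- The shifted values at prior variance `τ` tend to the flat supremum when that is finite. -/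
theorem tendsto_flatSup (hγ : ∀ k, 0 < γ k ∧ γ k ≤ 1) {l : ℝ → ℝ}
    (hb : ∀ τ, 0 < τ → ∀ dd ∈ centres γ, BddBelow (valSet τ f γ 1 dd))
    (hl : ∀ τ, 0 < τ → IsLUB (gVal τ f γ 1 '' centres γ) (l τ))
    {M : ℝ} (hM : ∀ dd ∈ centres γ, flatVal f γ dd ≤ M) :
    Tendsto (fun τ => l τ + (∑ k, γ k) * log τ / 2) atTop (𝓝 (flatSup f γ)) := by
  set G := ∑ k, γ k
  have hbdd : BddAbove (flatVal f γ '' centres γ) := ⟨M, by rintro _ ⟨dd, hd, rfl⟩; exact hM dd hd⟩
  have up : ∀ τ, 0 < τ → l τ + G * log τ / 2 ≤ flatSup f γ := fun τ hτ => by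
    have : l τ ≤ flatSup f γ - G * log τ / 2 := by
      refine (hl τ hτ).2 ?_
      rintro _ ⟨dd, hd, rfl⟩
      rw [gVal_eq_flat hγ hd (hb τ hτ dd hd)]
      have h1 : flatVal f γ dd ≤ flatSup f γ := le_csSup hbdd ⟨dd, hd, rfl⟩
      have h2 := div_nonneg (diagSum_nonneg hd) (by positivity : (0 : ℝ) ≤ 2 * τ)
      linarith
    linarith
  refine Metric.tendsto_atTop.2 fun ε hε => ?_
  obtain ⟨_, ⟨dd, hd, rfl⟩, hdd⟩ := exists_lt_of_lt_csSup ((centres_nonempty γ).image _)
    (show flatSup f γ - ε / 2 < sSup (flatVal f γ '' centres γ) by rw [flatSup]; linarith)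
  obtain ⟨T, hT⟩ := eventually_atTop.1
    (((tendsto_id.const_mul_atTop two_pos).const_div_atTop (diagSum dd)).eventually_lt_const
      (half_pos hε))
  refine ⟨max T 1, fun τ hτ => ?_⟩
  have hτ0 : 0 < τ := lt_of_lt_of_le one_pos (le_of_max_le_right hτ)
  have h2 := (hl τ hτ0).1 ⟨dd, hd, rfl⟩
  rw [gVal_eq_flat hγ hd (hb τ hτ0 dd hd)] at h2
  have h3 : diagSum dd / (2 * τ) < ε / 2 := hT τ (le_of_max_le_left hτ)
  rw [Real.dist_eq, abs_lt]
  constructor <;> linarith [up τ hτ0]

/-- Gaussian integral of a negative square along a covariance. -/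
theorem integral_exp_neg_quad {D : Matrix (Fin d) (Fin d) ℝ} (hD : D.PosSemidef) {a : ℝ}
    (ha : 0 ≤ a) :
    Integrable (fun g => exp (-(a * ∑ k, arrMap (facOf D) g k ^ 2 / 2))) (gs d) ∧
    ∫ g, exp (-(a * ∑ k, arrMap (facOf D) g k ^ 2 / 2)) ∂gs d = (√(1 + a • D).det)⁻¹ := by
  set S := CFC.sqrt D
  have hs : S.PosSemidef := Matrix.nonneg_iff_posSemidef.1 (CFC.sqrt_nonneg D)
  have hb : S * S = D := CFC.sqrt_mul_sqrt_self D hD.nonneg
  have ht : S.transpose = S := by
    have := hs.isHermitian.eq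
    rwa [conjTranspose_eq_transpose_of_trivial] at this
  have e : ∀ g : Fin d → ℝ, arrMap (facOf D) g = S *ᵥ g := fun g => by
    funext k
    simp [arrMap_apply, facOf, S, Matrix.mulVec, dotProduct]
  have key : ∀ g : Fin d → ℝ, -(a * ∑ k, arrMap (facOf D) g k ^ 2 / 2)
      = (0 : Fin d → ℝ) ⬝ᵥ g - g ⬝ᵥ ((1 + a • D) - 1) *ᵥ g / 2 := fun g => by
    rw [add_sub_cancel_left, Matrix.smul_mulVec, dotProduct_smul, e, zero_dotProduct,
      ← Finset.sum_div, show D *ᵥ g = S *ᵥ (S *ᵥ g) by rw [Matrix.mulVec_mulVec, hb],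
      Matrix.dotProduct_mulVec, ← Matrix.mulVec_transpose, ht]
    simp only [dotProduct, smul_eq_mul, pow_two]
    ring
  have h := gauss_quad (Matrix.PosDef.one.add_posSemidef (hD.smul ha)) (0 : Fin d → ℝ)
  simp only [key]
  refine ⟨h.1, h.2.trans ?_⟩
  simp

/-- A determinant on the present components is below one on all components. -/
theorem log_det_lift_le {D : Matrix (Fin d) (Fin d) ℝ} {a : ℝ} (ha : 0 < a) (t : Finset (Fin d))
    {X : Matrix (Fin t.card) (Fin t.card) ℝ} (hX : X.PosDef) (hD : (D - Formula.liftM t X).PosSemidef) :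
    log X.det + t.card * log a ≤ log (1 + a • D).det := by
  have hsel : selM t * (selM t).transpose = 1 := by
    ext b b'
    simp [selM, Matrix.mul_apply, Matrix.one_apply, (comp t).injective.eq_iff]
  have hp : (1 + a • Formula.liftM t X).PosDef := Matrix.PosDef.one.add_posSemidef
    ((liftM_psd hX.posSemidef).smul ha.le)
  have hdet : (1 + a • Formula.liftM t X).det = (1 + a • X).det := by
    rw [show a • Formula.liftM t X = ((selM t).transpose * (a • X)) * selM t by
      simp [Formula.liftM, Matrix.mul_smul, Matrix.smul_mul], Matrix.det_one_add_mul_comm, ← Matrix.mul_assoc,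
      hsel, Matrix.one_mul]
  have hDp : (1 + a • D).PosDef := by
    have : D.PosSemidef := by simpa using hD.add (liftM_psd hX.posSemidef)
    exact Matrix.PosDef.one.add_posSemidef (this.smul ha.le)
  have h1 : log (1 + a • Formula.liftM t X).det ≤ log (1 + a • D).det :=
    log_det_le_of_psd hp hDp (by simpa [smul_sub] using hD.smul ha.le)
  have h2 : log (a • X).det ≤ log (1 + a • X).det :=
    log_det_le_of_psd (hX.smul ha) (Matrix.PosDef.one.add_posSemidef (hX.posSemidef.smul ha.le))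
      (by simpa using (Matrix.PosDef.one (R := ℝ) (n := Fin t.card)).posSemidef)
  rw [Matrix.det_smul, Fintype.card_fin, log_mul (pow_ne_zero _ ha.ne') hX.det_pos.ne', log_pow]
    at h2
  rw [hdet] at h1
  linarith

/-- With a negative quadratic in the exponent the flat values are bounded above. -/
theorem flatVal_le (hγ : ∀ k, 0 < γ k ∧ γ k ≤ 1) {a C : ℝ} (ha : 0 < a) (hf : Continuous f)
    (hup : ∀ y, f y ≤ C - a * ∑ k, y k ^ 2 / 2) (hb : ∀ dd ∈ centres γ, BddBelow (valSet 1 f γ 1 dd)) :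
    ∃ M, ∀ dd ∈ centres γ, flatVal f γ dd ≤ M := by
  refine ⟨C + ∑ t, tfrac γ t * ((t.card : ℝ) * (1 - log (a * tfrac γ t))) / 2, fun dd hd => ?_⟩
  obtain ⟨κ, L, hκ, hg⟩ := id hd
  have hpd : ∀ t, Occupied γ t → (typD γ dd t).PosDef := fun t ht => by
    simpa using Matrix.PosDef.posSemidef_add (typD_posDef hκ hγ hg ht)
      (Matrix.PosDef.one.smul (div_pos hκ (tfrac_pos hγ ht)))
  have hA : Formula.Adm γ dd 0 (fun _ _ => 0) :=
    ⟨fun t _ => ⟨Matrix.PosSemidef.zero, fun l hl => absurd hl (by simp)⟩,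
      fun t ht => by simpa using hpd t ht⟩
  refine (csInf_le (flatSet_bddBelow hγ hd (hb dd hd)) ⟨0, fun _ _ => 0, hA, rfl⟩).trans ?_
  set D := dTot dd
  have hterm : ∀ t, (tfrac γ t • Formula.liftM t (typD γ dd t)).PosSemidef := fun t => by
    by_cases ho : Occupied γ t
    · exact (liftM_psd (hpd t ho).posSemidef).smul (tfrac_nonneg γ t)
    rcases t.eq_empty_or_nonempty with rfl | hne
    · rw [show typD γ dd ∅ = 0 from Matrix.ext fun b => absurd b.isLt (by simp), liftM_zero, smul_zero]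
      exact Matrix.PosSemidef.zero
    · rw [tfrac_eq_zero hγ hne ho, zero_smul]
      exact Matrix.PosSemidef.zero
  have hD : D.PosSemidef := by
    simpa [D, dTot_eq hγ hg.1] using Matrix.posSemidef_sum _ fun t _ => hterm t
  have hdp : (1 + a • D).PosDef := Matrix.PosDef.one.add_posSemidef (hD.smul ha.le)
  have hrow : rowVal f 0 D (qTot γ fun _ _ => 0) ≤ C - log (1 + a • D).det / 2 := by
    have hq : ∀ l, qTot γ (fun _ _ => 0) l = 0 := fun l => by simp [qTot, liftM_zero]
    have h0 : facOf (0 : Matrix (Fin d) (Fin d) ℝ) = fun _ _ => 0 := by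
      funext k i; simp [facOf]
    have hi := integral_exp_neg_quad hD ha.le
    have e : rowVal f 0 D (qTot γ fun _ _ => 0)
        = log (∫ g, exp (f (arrMap (facOf D) g)) ∂gs d) := by
      have hz : ∀ z : Fin d → ℝ, arrMap (fun _ _ => (0 : ℝ)) z = (0 : Fin d → ℝ) := fun z => by
        funext k; simp [arrMap_apply]
      simp only [rowVal, rowCasc, hq, sub_zero, h0, casc, rowFld, hz]
      simp [rowLeaf, gaus_eq_gs]
    have hpos : 0 < ∫ g, exp (f (arrMap (facOf D) g)) ∂gs d := integral_exp_pos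
      (Integrable.of_bound (by fun_prop) (exp C) (ae_of_all _ fun g => by
        rw [Real.norm_eq_abs, abs_exp]
        refine exp_le_exp.2 ((hup _).trans ?_)
        have := mul_nonneg ha.le (Finset.sum_nonneg fun k (_ : k ∈ univ) =>
          (by positivity : 0 ≤ arrMap (facOf D) g k ^ 2 / 2))
        linarith))
    rw [e]
    have hmono : ∫ g, exp (f (arrMap (facOf D) g)) ∂gs d ≤ exp C * (√(1 + a • D).det)⁻¹ := by
      rw [← hi.2, ← integral_const_mul]
      refine integral_mono_of_nonneg (ae_of_all _ fun g => (exp_pos _).le) (hi.1.const_mul _)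
        (ae_of_all _ fun g => ?_)
      show exp _ ≤ exp C * exp _
      rw [← exp_add]
      exact exp_le_exp.2 ((hup _).trans_eq (by ring))
    refine (log_le_log hpos hmono).trans_eq ?_
    rw [log_mul (exp_pos C).ne' (inv_ne_zero (sqrt_pos.2 hdp.det_pos).ne'), log_exp, log_inv,
      log_sqrt hdp.det_pos.le]
    ring
  have hent : ∀ t, tfrac γ t * flatEnt 0 (typD γ dd t) (fun _ => 0)
      ≤ tfrac γ t * log (1 + a • D).det / 2
        + tfrac γ t * ((t.card : ℝ) * (1 - log (a * tfrac γ t))) / 2 := fun t => by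
    have e : flatEnt 0 (typD γ dd t) (fun _ => 0) = (log (typD γ dd t).det + t.card) / 2 := by
      simp [flatEnt, levelSum, tT, Formula.tail]
      ring
    rw [e]
    rcases eq_or_lt_of_le (tfrac_nonneg γ t) with h | h
    · simp [← h]
    by_cases ho : Occupied γ t
    · have hsub : (D - Formula.liftM t (tfrac γ t • typD γ dd t)).PosSemidef := by
        rw [liftM_smul, show D = dTot dd from rfl, dTot_eq hγ hg.1,
          ← Finset.sum_erase_add _ _ (Finset.mem_univ t), add_sub_cancel_right]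
        exact Matrix.posSemidef_sum _ fun s _ => hterm s
      have hl := log_det_lift_le ha t ((hpd t ho).smul h) hsub
      rw [Matrix.det_smul, Fintype.card_fin, log_mul (pow_ne_zero _ h.ne') (hpd t ho).det_pos.ne',
        log_pow] at hl
      rw [log_mul ha.ne' h.ne']
      nlinarith
    · obtain rfl : t = ∅ := by
        by_contra hne
        exact h.ne (tfrac_eq_zero hγ (Finset.nonempty_iff_ne_empty.2 hne) ho).symm
      have : IsEmpty (Fin (∅ : Finset (Fin d)).card) := ⟨fun b => absurd b.isLt (by simp)⟩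
      have h0 : 0 ≤ log (1 + a • D).det := by
        have := log_det_le_of_psd Matrix.PosDef.one hdp (by simpa using hD.smul ha.le)
        simpa using this
      have hl : log (typD γ dd ∅).det = 0 := by rw [Matrix.det_isEmpty, log_one]
      rw [hl, Finset.card_empty, Nat.cast_zero]
      nlinarith
  have hsum := Finset.sum_le_sum fun t (_ : t ∈ univ) => hent t
  rw [Finset.sum_add_distrib, ← Finset.sum_div, ← Finset.sum_mul, sum_tfrac hγ] at hsum
  simp only [flatPath]
  linarith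

end Vale.Agent.P166.Main
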