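import Vale.Agent.P166.Main.Approx
import Vale.Agent.P166.Pen.BigCentre
import Vale.Agent.P166.Casc.VUpper
import Vale.Agent.P166.Casc.VLower

/-!
P166: the variational formula of the free energy of the nested vector spins with bounded uniformly
continuous potentials.
-/

open MeasureTheory ProbabilityTheory Filter Topology Finset

namespace Vale.Agent.P166.Main

open Vale.Agent.P166 Vale.Agent.P166.Nested Vale.Agent.P166.Pen Vale.Agent.P166.Formula

variable {d : ℕ}

/-- Without penalty the cut free energy is at least minus the bound of the potential. -/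
theorem freePen_zero_ge {τ B b : ℝ} (hτ : 0 ≤ τ) {γ : Fin d → ℝ} {f : (Fin d → ℝ) → ℝ}
    (hf : Continuous f) (hb : ∀ y, |f y| ≤ b) (dd : OIdx d → ℝ) {N : ℕ} (hN : 0 < N)
    (hcut : 2 * ((spinLaw d N).real (cutSet B d N)ᶜ * Real.exp (2 * (N * b))) ≤ 1)
    (hS : 0 < (spinLaw d N).real (cutSet B d N)) :
    -(b + 1) ≤ freePen τ f γ B 0 dd N := by
  have hb0 : 0 ≤ b := (abs_nonneg _).trans (hb 0)
  have hN' : (1 : ℝ) ≤ N := Nat.one_le_cast.2 hN
  have hhalf : 1 / 2 ≤ (spinLaw d N).real (cutSet B d N) := by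
    have h1 : (spinLaw d N).real (cutSet B d N)ᶜ
        ≤ (spinLaw d N).real (cutSet B d N)ᶜ * Real.exp (2 * (N * b)) :=
      le_mul_of_one_le_right measureReal_nonneg (Real.one_le_exp (by positivity))
    linarith [probReal_add_probReal_compl (μ := spinLaw d N) (measurableSet_cut B d N)]
  have hpt : ∀ G : Fin N → Fin N → ℝ, -((N : ℝ) * b) - 1 ≤
      Real.log (zpen (spinLaw d N) (ene τ f γ G) (ovl τ γ) (cutSet B d N) (0 * N) dd) := fun G => by
    have h2 : 1 / 2 * Real.exp (-((N : ℝ) * b))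
        ≤ zpen (spinLaw d N) (ene τ f γ G) (ovl τ γ) (cutSet B d N) (0 * N) dd := by
      simp only [zpen, zero_mul, sub_zero]
      refine (mul_le_mul_of_nonneg_right hhalf (Real.exp_pos _).le).trans ?_
      rw [show (spinLaw d N).real (cutSet B d N) * Real.exp (-((N : ℝ) * b))
          = ∫ _ in cutSet B d N, Real.exp (-((N : ℝ) * b)) ∂spinLaw d N by
        rw [setIntegral_const, smul_eq_mul]]
      exact setIntegral_mono_on (integrableOn_const (measure_ne_top _ _))
        (integrable_exp_energy (measurable_eneG τ hf γ G) (abs_ene_le hb γ G)).integrableOn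
        (measurableSet_cut B d N) fun x _ => Real.exp_le_exp.2 (neg_le_of_abs_le (abs_ene_le hb γ G x))
    refine le_trans ?_ (Real.log_le_log (by positivity) h2)
    rw [Real.log_mul (by norm_num) (Real.exp_ne_zero _), Real.log_exp, one_div, Real.log_inv]
    linarith [Real.log_two_lt_d9]
  have hi := (dev_log_zpen hf hb γ le_rfl dd hb0 hτ hN hS).1
  have h3 := integral_mono (integrable_const (-((N : ℝ) * b) - 1)) hi hpt
  rw [integral_const, probReal_univ, one_smul] at h3
  rw [freePen, one_div_mul_eq_div, le_div_iff₀ (by linarith)]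
  nlinarith

/-- The variational formula for smooth symmetric potentials. -/
theorem free_formula_vpot {τ : ℝ} (hτ : 0 < τ) (hd : 0 < d) {γ : Fin d → ℝ}
    (hγ : ∀ k, γ k ∈ Set.Ioo (0 : ℝ) 1) (P : Casc.VPot d)
    (hh : ∀ k k' y, P.h k k' y = P.h k' k y) :
    ∃ lim, Tendsto (Nested.free τ P.f γ) atTop (𝓝 lim) ∧
      IsLUB (gVal τ P.f γ 1 '' centres γ) lim := by
  classical
  have hγ' : ∀ k, 0 < γ k ∧ γ k ≤ 1 := fun k => ⟨(hγ k).1, (hγ k).2.le⟩
  obtain ⟨B1, hB1⟩ := cut_eventually (K := d) P.bF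
  obtain ⟨B2, hbig⟩ := freePen_big_centre hτ P.cf P.hF
  have hb0 : 0 ≤ P.bF := (abs_nonneg _).trans (P.hF 0)
  refine free_limit_of_point hτ hγ P.cf P.hF (gVal τ P.f γ 1) (B0 := max (max B1 B2) 1)
    (fun B dd => if ((∑ t, ∑ k, dd (t, k, k)) + d) / τ + 2 * d ≤ B then gVal τ P.f γ 1 dd
      else -(2 * P.bF + 1)) ?_ ?_ ?_ ?_
  · intro B hB κ L η hκ hη dd hdd
    have hBpos : 0 < B := one_pos.trans_le (le_of_max_le_right hB)
    by_cases h : ((∑ t, ∑ k, dd (t, k, k)) + d) / τ + 2 * d ≤ B
    · simp only [if_pos h]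
      exact Casc.line_upper hτ hBpos hd P hh hγ' hκ hdd h
        ((hB1 B (le_of_max_le_left (le_of_max_le_left hB))).mono fun N hN => hN.2) hη
    · simp only [if_neg h]
      obtain ⟨lam0, hl⟩ := hbig B (le_of_max_le_right (le_of_max_le_left hB)) γ dd h
      exact ⟨lam0, fun lam hlam => (hl lam hlam).mono fun N hN => hN.trans (by linarith)⟩
  · intro B hB κ L η hκ hη dd hdd
    have hBpos : 0 < B := one_pos.trans_le (le_of_max_le_right hB)
    by_cases h : ((∑ t, ∑ k, dd (t, k, k)) + d) / τ + 2 * d ≤ B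
    · simp only [if_pos h]
      obtain ⟨lam0, h0, hl⟩ := Casc.pen_lower_gVal hτ hγ' hd P hh hκ hdd hBpos h η hη
      exact ⟨lam0, h0, hl lam0 le_rfl⟩
    · simp only [if_neg h]
      refine ⟨0, le_rfl, ?_⟩
      filter_upwards [hB1 B (le_of_max_le_left (le_of_max_le_left hB)), eventually_gt_atTop 0]
        with N hN hN0
      linarith [freePen_zero_ge (γ := γ) hτ.le P.cf P.hF dd hN0 hN.1 hN.2]
  · intro κ L dd _ _
    filter_upwards [eventually_ge_atTop (((∑ t, ∑ k, dd (t, k, k)) + d) / τ + 2 * d)] with B hB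
    rw [if_pos hB]
  · intro B κ L dd _ _
    by_cases h : ((∑ t, ∑ k, dd (t, k, k)) + d) / τ + 2 * d ≤ B
    · exact Or.inl (if_pos h)
    · exact Or.inr (if_neg h)

/-- **The variational formula**: the free energies of bounded uniformly continuous potentials tend
to the supremum over the self-overlaps of the infimum over the paths. -/
theorem freeFormula : FreeFormula := fun _ _ _ _ _ hd hτ hγ hu hb =>
  formula_of_vpot (fun k => ⟨(hγ k).1, (hγ k).2.le⟩)
    (fun P hh => free_formula_vpot hτ hd hγ P hh) hu hb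

end Vale.Agent.P166.Main
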