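import Vale.Agent.P166.MP
import Mathlib.MeasureTheory.Measure.Haar.Basic
import Mathlib.LinearAlgebra.UnitaryGroup

/-!
P166: a law on orthogonal matrices invariant under left multiplication exists.
-/

open MeasureTheory Matrix TopologicalSpace

namespace Vale.Agent.P166.Main

open Vale.Agent.P166

/-- Haar measure of the orthogonal group, on arrays. -/
theorem exists_leftInv (N : ℕ) :
    ∃ π : Measure (Fin N → Fin N → ℝ), IsProbabilityMeasure π ∧ LeftInv π := by
  let G := Matrix.orthogonalGroup (Fin N) ℝ
  have hcl : IsClosed (G : Set (Matrix (Fin N) (Fin N) ℝ)) := by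
    have e : (G : Set (Matrix (Fin N) (Fin N) ℝ)) = {A | A * Aᵀ = 1} := Set.ext fun A =>
      Matrix.mem_orthogonalGroup_iff (Fin N) ℝ
    rw [e]
    exact isClosed_eq (continuous_id.matrix_mul continuous_id.matrix_transpose) continuous_const
  have hbox : IsCompact (Set.univ.pi fun _ : Fin N => Set.univ.pi fun _ : Fin N =>
      Set.Icc (-1 : ℝ) 1) := isCompact_univ_pi fun _ => isCompact_univ_pi fun _ => isCompact_Icc
  have hsub : (G : Set (Matrix (Fin N) (Fin N) ℝ)) ⊆
      Set.univ.pi fun _ : Fin N => Set.univ.pi fun _ : Fin N => Set.Icc (-1 : ℝ) 1 := by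
    intro A hA i _ j _
    have h1 : A * Aᵀ = 1 := (Matrix.mem_orthogonalGroup_iff (Fin N) ℝ).1 hA
    have h2 : ∑ l, A i l * A i l = 1 := by
      have := congrFun (congrFun h1 i) i
      simpa [Matrix.mul_apply] using this
    have h3 := Finset.single_le_sum (f := fun l => A i l * A i l) (fun l _ => mul_self_nonneg _)
      (Finset.mem_univ j)
    rw [h2] at h3
    constructor <;> nlinarith
  have hK : CompactSpace G := isCompact_iff_compactSpace.1 (hbox.of_isClosed_subset hcl hsub)
  let _ : MeasurableSpace G := borel G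
  have hB : BorelSpace G := ⟨rfl⟩
  let φ : G → Fin N → Fin N → ℝ := fun Q i k => (Q : Matrix (Fin N) (Fin N) ℝ) i k
  have hφ : Continuous φ := continuous_pi fun i => continuous_pi fun k =>
    (continuous_apply k).comp ((continuous_apply i).comp continuous_subtype_val)
  let ν := Measure.haarMeasure (⊤ : PositiveCompacts G)
  have hν : IsProbabilityMeasure ν := ⟨by
    have := Measure.haarMeasure_self (K₀ := (⊤ : PositiveCompacts G))
    simpa using this⟩
  refine ⟨ν.map φ, Measure.isProbabilityMeasure_map hφ.measurable.aemeasurable, ?_, fun Q hQ => ?_⟩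
  · refine (ae_map_iff hφ.measurable.aemeasurable ?_).2 (ae_of_all _ fun Q => ?_)
    · exact (isClosed_eq ((continuous_id.matrix_transpose.matrix_mul continuous_id).comp
        (continuous_id (X := Fin N → Fin N → ℝ))) continuous_const).measurableSet
    · exact (Matrix.mem_orthogonalGroup_iff' (Fin N) ℝ).1 Q.2
  · have hQ' : Q ∈ G := (Matrix.mem_orthogonalGroup_iff' (Fin N) ℝ).2 hQ
    have hm : Measurable fun (U : Fin N → Fin N → ℝ) i k => (Q * Matrix.of U) i k := by
      refine measurable_pi_lambda _ fun i => measurable_pi_lambda _ fun k => ?_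
      simp only [Matrix.mul_apply, Matrix.of_apply]
      fun_prop
    rw [Measure.map_map hm hφ.measurable]
    conv_rhs => rw [← map_mul_left_eq_self ν ⟨Q, hQ'⟩]
    rw [Measure.map_map hφ.measurable (measurable_const_mul _)]
    rfl

end Vale.Agent.P166.Main
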