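import Vale.Agent.P166.Main.Defs
import Vale.Agent.P166.Main.Haar
import Vale.Agent.P166.Nested.Reduce

/-!
P166: the limiting pressure is the limit of the variational values of the grids.
-/

open MeasureTheory ProbabilityTheory Filter Topology Matrix Finset

namespace Vale.Agent.P166.Main

open Vale.Agent.P166 Vale.Agent.P166.Nested Vale.Agent.P166.Pen Vale.Agent.P166.Formula

variable {d : ℕ}

/-- A potential below a falling quadratic tends to minus infinity at infinity. -/
theorem tendsto_atBot_of_quad_le {f : (Fin d → ℝ) → ℝ} {a D : ℝ} (ha : 0 < a)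
    (h : ∀ y, f y ≤ D - a * ‖y‖ ^ 2) : Tendsto f (cocompact (Fin d → ℝ)) atBot :=
  tendsto_atBot_mono (fun y => (h y).trans_eq (sub_eq_add_neg _ _)) <|
    tendsto_atBot_add_const_left _ _ <| tendsto_neg_atTop_atBot.comp <|
      ((tendsto_pow_atTop two_ne_zero).comp tendsto_norm_cocompact_atTop).const_mul_atTop ha

theorem sq_norm_le_sum (y : Fin d → ℝ) : ‖y‖ ^ 2 ≤ ∑ k, y k ^ 2 := by
  have h0 : 0 ≤ ∑ k, y k ^ 2 := Finset.sum_nonneg fun k _ => sq_nonneg _
  rw [← Real.sq_sqrt h0]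
  refine pow_le_pow_left₀ (norm_nonneg _) ((pi_norm_le_iff_of_nonneg (Real.sqrt_nonneg _)).2 fun k => ?_) 2
  exact Real.abs_le_sqrt (Finset.single_le_sum (f := fun k => y k ^ 2) (fun j _ => sq_nonneg _)
    (mem_univ k))

/-- The cut of a potential falling to minus infinity is uniformly continuous. -/
theorem uniformContinuous_trunc {C R : ℝ} (hR : 0 < R) {f : (Fin d → ℝ) → ℝ} (hf : Continuous f)
    (ht : Tendsto f (cocompact (Fin d → ℝ)) atBot) : UniformContinuous (trunc C R f) := by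
  refine (continuous_trunc hf).uniformContinuous_of_tendsto_cocompact (x := C - R * (1 - 0)) ?_
  have h1 : Tendsto (fun y => (C - f y) / R) (cocompact (Fin d → ℝ)) atTop :=
    (tendsto_atTop_add_const_left _ C (tendsto_neg_atBot_atTop.comp ht)).atTop_div_const hR
  exact (((Real.tendsto_exp_neg_atTop_nhds_zero.comp h1).const_sub 1).const_mul R).const_sub C

/-- The potential of the nested model tends to minus infinity at infinity. -/
theorem tendsto_pot {c : Fin d → ℝ} (hc : ∀ k, 0 < c k) :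
    Tendsto (pot c) (cocompact (Fin d → ℝ)) atBot := by
  set S := 1 + ∑ k, 1 / c k
  have h1 : ∀ k, 0 ≤ 1 / c k := fun k => (one_div_pos.2 (hc k)).le
  have hS : 0 < S := add_pos_of_pos_of_nonneg one_pos (Finset.sum_nonneg fun k _ => h1 k)
  refine tendsto_atBot_of_quad_le (a := 1 / (4 * S)) (D := ∑ k, c k) (by positivity) fun y => ?_
  have hlc : Real.log (Real.cosh (∑ k, c k * y k)) ≤ |∑ k, c k * y k| := by
    rw [Real.log_le_iff_le_exp (Real.cosh_pos _), Real.cosh_eq]
    linarith [Real.exp_le_exp.2 (le_abs_self (∑ k, c k * y k)),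
      Real.exp_le_exp.2 (neg_le_abs (∑ k, c k * y k))]
  have hk : ∀ k, |c k * y k| - c k * y k ^ 2 / 2 + 1 / (4 * S) * y k ^ 2 ≤ c k := fun k => by
    have hcS : 1 ≤ c k * S := by
      rw [mul_comm]
      refine (div_le_iff₀ (hc k)).1 ?_
      simp only [S]
      linarith [Finset.single_le_sum (f := fun k => 1 / c k) (fun j _ => h1 j) (mem_univ k)]
    have e : 1 / (4 * S) * y k ^ 2 ≤ c k * y k ^ 2 / 4 := by
      rw [one_div_mul_eq_div, div_le_div_iff₀ (by positivity) (by norm_num)]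
      nlinarith [mul_le_mul_of_nonneg_right hcS (sq_nonneg (y k))]
    rw [abs_mul, abs_of_pos (hc k)]
    have := mul_nonneg (hc k).le (sq_nonneg (|y k| - 2))
    rw [sub_sq, sq_abs] at this
    linarith
  have hsum := Finset.sum_le_sum fun k (_ : k ∈ univ) => hk k
  rw [Finset.sum_add_distrib, Finset.sum_sub_distrib, ← Finset.mul_sum] at hsum
  have := mul_le_mul_of_nonneg_left (sq_norm_le_sum y) (show 0 ≤ 1 / (4 * S) by positivity)
  simp only [pot]
  linarith [Finset.abs_sum_le_sum_abs (fun k => c k * y k) univ]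

/-- The free energy of a potential with quadratic lower bound is the limit of the values of its
cuts. -/
theorem cut_limit (hF : FreeFormula) (hd : 0 < d) {τ C A : ℝ} (hτ : 0 < τ) (hA : 0 ≤ A)
    (hC : 0 ≤ C) {γ : Fin d → ℝ} (hγ : ∀ k, γ k ∈ Set.Ioo (0 : ℝ) 1) {f : (Fin d → ℝ) → ℝ}
    (hf : Continuous f) (hup : ∀ y, f y ≤ C) (hlo : ∀ y, -(A * (1 + ∑ k, y k ^ 2)) ≤ f y)
    (ht : Tendsto f (cocompact (Fin d → ℝ)) atBot) :
    ∃ l, Tendsto (Nested.free τ f γ) atTop (𝓝 l) ∧
      Tendsto (fun R => supInf τ (trunc C R f) γ) atTop (𝓝 l) := by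
  have hR : ∀ R > (0 : ℝ),
      Tendsto (Nested.free τ (trunc C R f) γ) atTop (𝓝 (supInf τ (trunc C R f) γ)) := fun R hR => by
    obtain ⟨lim, h1, h2⟩ := hF d τ γ _ (|C| + R) hd hτ hγ (uniformContinuous_trunc hR hf ht)
      (abs_trunc_le hR hup)
    rwa [supInf, h2.csSup_eq h2.nonempty]
  obtain ⟨l, hl⟩ := free_limit_of_trunc hτ.le hA hC γ hf hup hlo fun R h => ⟨_, hR R h⟩
  obtain ⟨D, hD, hb⟩ := trunc_close hτ.le hA hC γ hf hup hlo
  refine ⟨l, hl, Metric.tendsto_atTop.2 fun ε hε => ?_⟩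
  set L := (4 * D + 1) / ε with hL
  have hL0 : 0 < L := by positivity
  refine ⟨16 * Real.exp C * Real.exp L / ε + 1, fun R hR0 => ?_⟩
  have hR1 : 0 < R := lt_of_lt_of_le (by positivity) hR0
  have e1 : 4 * Real.exp C / R * Real.exp L ≤ ε / 4 := by
    have h : 16 * Real.exp C * Real.exp L / ε ≤ R := by linarith
    rw [div_le_iff₀ hε] at h
    rw [div_mul_eq_mul_div, div_le_iff₀ hR1]
    linarith
  have e2 : D / L ≤ ε / 4 := by
    rw [hL, div_div_eq_mul_div, div_le_iff₀ (by positivity)]; nlinarith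
  rw [Real.dist_eq]
  have h := le_of_tendsto ((hR R hR1).sub hl).abs
    ((eventually_gt_atTop 0).mono fun N hN => hb R hR1 L hL0 N hN)
  linarith

theorem continuous_pot (c : Fin d → ℝ) : Continuous (pot c) := by
  have hcosh : Continuous fun y : Fin d → ℝ => Real.log (Real.cosh (∑ k, c k * y k)) :=
    (by fun_prop : Continuous fun y : Fin d → ℝ => Real.cosh (∑ k, c k * y k)).log
      fun y => (Real.cosh_pos _).ne'
  exact hcosh.sub (by fun_prop)

theorem cut_limit_quad (hF : FreeFormula) {c γ τ : ℝ} (hc : 0 < c) (hτ : 0 < τ)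
    (hγ : γ ∈ Set.Ioo (0 : ℝ) 1) :
    ∃ l, Tendsto (Nested.free τ (quad c) fun _ => γ) atTop (𝓝 l) ∧
      Tendsto (fun R => supInf τ (trunc 0 R (quad c)) fun _ => γ) atTop (𝓝 l) :=
  cut_limit hF one_pos hτ hc.le le_rfl (fun _ => hγ) (by unfold quad; fun_prop)
    (fun y => neg_nonpos.2 (by positivity))
    (fun y => by simp only [quad, Fin.sum_univ_one]; nlinarith [sq_nonneg (y 0)])
    (tendsto_atBot_of_quad_le (a := c / 2) (D := 0) (half_pos hc) fun y => by
      have h := mul_le_mul_of_nonneg_left (sq_norm_le_sum y) (half_pos hc).le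
      simp only [Fin.sum_univ_one] at h
      simp only [quad]
      linarith)

/-- The two limits of the reduction from the variational formula of bounded potentials. -/
theorem engineLimit_of_formula (hF : FreeFormula) : EngineLimit := by
  refine ⟨fun K c γ τ hK hτ hc hγ => ?_, fun c γ τ hc hτ hγ =>
    (cut_limit_quad hF hc hτ hγ).imp fun _ h => h.1⟩
  exact (cut_limit hF hK hτ (Finset.sum_nonneg fun k _ => (hc k).le)
    (add_nonneg (div_nonneg (Finset.sum_nonneg fun k _ => (hc k).le) zero_le_two)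
      (Finset.sum_nonneg fun k _ => sq_nonneg _)) hγ (continuous_pot c)
    (fun y => (pot_bounds hc y).1) (fun y => (pot_bounds hc y).2) (tendsto_pot hc)).imp fun _ h => h.1

/-- Without components the value of the zero potential is zero. -/
theorem supInf_empty {d : ℕ} (hd : d = 0) (τ : ℝ) (γ : Fin d → ℝ) :
    supInf τ (fun _ => 0) γ = 0 := by
  subst hd
  have hv : ∀ dd : OIdx 0 → ℝ, ∀ r (q : TPath 0), pathVal τ (fun _ => (0 : ℝ)) γ 1 dd r q = 0 := by
    intro dd r q
    have h1 : rowVal (fun _ : Fin 0 → ℝ => (0 : ℝ)) r (dTot dd) (qTot γ q) = 0 :=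
      abs_nonpos_iff.1 (abs_rowVal_le measurable_const (fun _ => (abs_zero (α := ℝ)).le) r _ _)
    rw [pathVal, h1, mul_zero, zero_add]
    refine Finset.sum_eq_zero fun t _ => ?_
    obtain rfl : t = ∅ := Finset.eq_empty_of_isEmpty t
    have h0 : ∀ X : Matrix (Fin (∅ : Finset (Fin 0)).card) (Fin (∅ : Finset (Fin 0)).card) ℝ,
        X.trace = 0 ∧ Real.log X.det = 0 := fun X => by
      have he : IsEmpty (Fin (∅ : Finset (Fin 0)).card) := ⟨fun b => absurd b.isLt (by simp)⟩
      exact ⟨Finset.sum_eq_zero fun b _ => he.elim b, by rw [Matrix.det_isEmpty, Real.log_one]⟩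
    simp only [ent, levelSum, fun X => (h0 X).1, fun X => (h0 X).2]
    simp
  have hc : GoodCentre γ 1 0 (fun _ => 0) := by
    refine ⟨⟨fun t k => k.elim0, fun t k => k.elim0⟩, fun i => i.2.1.elim0, fun t ht => ?_⟩
    exact absurd (Finset.eq_empty_of_isEmpty t) ht.1.ne_empty
  have hne : (centres γ).Nonempty := ⟨fun _ => 0, 1, 0, one_pos, hc⟩
  have hg : ∀ dd ∈ centres γ, gVal τ (fun _ => (0 : ℝ)) γ 1 dd = 0 := by
    rintro dd ⟨κ, L, hκ, hd⟩
    have hne' := valSet_nonempty (τ := τ) (f := fun _ => (0 : ℝ)) (α := 1) (fun k => k.elim0) hκ hd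
    have e : valSet τ (fun _ => (0 : ℝ)) γ 1 dd = {0} := by
      refine hne'.subset_singleton_iff.1 ?_
      rintro _ ⟨r, q, -, rfl⟩
      exact hv dd r q
    rw [gVal, e, csInf_singleton]
  rw [supInf, Set.image_congr hg, hne.image_const, csSup_singleton]

variable (μ : Measure ℝ) [IsProbabilityMeasure μ] (a b β : ℝ)

/-- The coupling of the grid in terms of the active points. -/
theorem stepSpec_active (n N : ℕ) (j : Fin N) :
    β * stepSpec μ a (mesh a b n) (n + 1) N j = β * (a + mesh a b n * full μ a b n) +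
      ∑ k, β * mesh a b n * (if (j : ℕ) < ⌊frac μ a b n k * (N : ℝ)⌋₊ then 1 else 0) := by
  classical
  set h := mesh a b n
  set tl := tailAt μ a b n
  set s := active μ a b n with hs
  have e2 : ∑ k : Fin s.card, (if (j : ℕ) < ⌊frac μ a b n k * (N : ℝ)⌋₊ then (1 : ℝ) else 0)
      = ∑ k ∈ s, (if (j : ℕ) < above μ N (a + k * h) then (1 : ℝ) else 0) := by
    conv_rhs => rw [← Finset.map_orderEmbOfFin_univ s rfl, Finset.sum_map]
    rfl
  have e3 : (full μ a b n : ℝ) = ∑ k ∈ (range (n + 1)).filter (fun k => ¬(0 < tl k ∧ tl k < 1)),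
      (if (j : ℕ) < above μ N (a + k * h) then (1 : ℝ) else 0) := by
    simp only [full]
    rw [← Finset.sum_boole, Finset.sum_filter]
    refine Finset.sum_congr rfl fun k _ => ?_
    have ht : 0 ≤ tl k ∧ tl k ≤ 1 := ⟨measureReal_nonneg, measureReal_le_one⟩
    by_cases h1 : tl k = 1
    · rw [if_pos h1, if_pos (fun hh' => absurd h1 hh'.2.ne), if_pos]
      show (j : ℕ) < ⌊tl k * N⌋₊
      rw [h1, one_mul, Nat.floor_natCast]
      exact j.2
    · rw [if_neg h1]
      by_cases h0 : tl k = 0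
      · rw [if_pos (fun hh' => absurd h0 hh'.1.ne'), if_neg]
        show ¬(j : ℕ) < ⌊tl k * N⌋₊
        simp [h0]
      · rw [if_neg (not_not.2 ⟨lt_of_le_of_ne ht.1 (Ne.symm h0), lt_of_le_of_ne ht.2 h1⟩)]
  have e4 : s = (range (n + 1)).filter fun k => 0 < tl k ∧ tl k < 1 := by
    simp only [hs, active, tl]
  have e1 : ∑ k ∈ range (n + 1), (if (j : ℕ) < above μ N (a + k * h) then (1 : ℝ) else 0)
      = full μ a b n + ∑ k : Fin s.card, (if (j : ℕ) < ⌊frac μ a b n k * (N : ℝ)⌋₊ then (1 : ℝ) else 0) := by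
    rw [e2, e3, e4]
    exact (Finset.sum_filter_not_add_sum_filter _ _ _).symm
  simp only [stepSpec, e1, ← Finset.mul_sum]
  ring

variable {μ a b β}

omit [IsProbabilityMeasure μ] in
theorem frac_mem (n : ℕ) (k : Fin (active μ a b n).card) :
    frac μ a b n k ∈ Set.Ioo (0 : ℝ) 1 := by
  classical
  have h := Finset.orderEmbOfFin_mem (active μ a b n) rfl k
  simp only [active, Finset.mem_filter] at h
  exact h.2

theorem mesh_pos (hab : a ≤ b) (n : ℕ) : 0 < mesh a b n := by
  unfold mesh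
  have : 0 < b - a + 1 := by linarith
  positivity

/-- The values of one grid converge in the depth of the cut, and then in the prior variance, to
within half a step of the mean pressure. -/
theorem grid_limit (hF : FreeFormula) (hμ : ∀ᵐ x ∂μ, x ∈ Set.Icc a b) (hβ : 0 < β)
    {law : ∀ N : ℕ, Measure (Fin N → Fin N → ℝ)} (hp : ∀ N, IsProbabilityMeasure (law N))
    (hlaw : ∀ N, LeftInv (law N)) {L : ℝ}
    (hL : Tendsto (fun N => ∫ U, pr β (refSpec μ N) U ∂law N) atTop (𝓝 L)) (n : ℕ) :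
    ∃ (F : ℝ → ℝ) (Ln : ℝ), (∀ τ, 0 < τ → Tendsto (psi μ a b β n τ) atTop (𝓝 (F τ))) ∧
      Tendsto F atTop (𝓝 Ln) ∧ |Ln - L| ≤ β / 2 * mesh a b n := by
  classical
  obtain ⟨x₀, hx₀⟩ := hμ.exists
  have hab : a ≤ b := hx₀.1.trans hx₀.2
  have hh := mesh_pos hab n
  set h := mesh a b n
  set K := (active μ a b n).card
  set c : Fin K → ℝ := fun _ => β * h with hcdef
  have hc : ∀ k, 0 < c k := fun _ => mul_pos hβ hh
  set γ := frac μ a b n
  have hγ : ∀ k, γ k ∈ Set.Ioo (0 : ℝ) 1 := frac_mem n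
  set C := (∑ k, c k) / 2 + ∑ k, c k ^ 2
  set t0 := β * (a + h * full μ a b n)
  have hpot : ∀ τ, 0 < τ → ∃ l, Tendsto (free τ (pot c) γ) atTop (𝓝 l) ∧
      Tendsto (fun R => supInf τ (trunc C R (pot c)) γ) atTop (𝓝 l) := fun τ hτ => by
    rcases Nat.eq_zero_or_pos K with hK | hK
    · refine ⟨0, ?_, ?_⟩
      · refine tendsto_const_nhds.congr' ((eventually_gt_atTop 0).mono fun N hN => ?_)
        have : IsEmpty (Fin K) := by rw [hK]; infer_instance
        simp [free, zf, pot, Real.cosh_zero, probReal_univ]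
      · have : IsEmpty (Fin K) := by rw [hK]; infer_instance
        have hz : ∀ R, trunc C R (pot c) = fun _ : Fin K → ℝ => (0 : ℝ) := fun R => by
          funext y; simp [trunc, C, pot, Real.cosh_zero]
        simp only [hz, supInf_empty hK τ γ]
        exact tendsto_const_nhds
    · exact cut_limit hF hK hτ (Finset.sum_nonneg fun k _ => (hc k).le)
        (add_nonneg (div_nonneg (Finset.sum_nonneg fun k _ => (hc k).le) zero_le_two)
          (Finset.sum_nonneg fun k _ => sq_nonneg _)) hγ (continuous_pot c)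
        (fun y => (pot_bounds hc y).1) (fun y => (pot_bounds hc y).2) (tendsto_pot hc)
  choose lp hlp1 hlp2 using hpot
  choose lq hlq1 hlq2 using fun (τ : ℝ) (hτ : 0 < τ) (k : Fin K) =>
    cut_limit_quad hF (hc k) hτ (hγ k)
  set F : ℝ → ℝ := fun τ => if hτ : 0 < τ then t0 / 2 + lp τ hτ - ∑ k, lq τ hτ k else 0 with hFdef
  set X : ℝ → ℕ → ℝ := fun τ N =>
    t0 / 2 + free τ (pot c) γ N - ∑ k, free τ (quad (c k)) (fun _ => γ k) N
  have hX : ∀ τ, 0 < τ → Tendsto (X τ) atTop (𝓝 (F τ)) := fun τ hτ => by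
    simp only [hFdef, dif_pos hτ]
    exact ((hlp1 τ hτ).const_add _).sub (tendsto_finsetSum _ fun k _ => hlq1 τ hτ k)
  have hpsi : ∀ τ, 0 < τ → Tendsto (psi μ a b β n τ) atTop (𝓝 (F τ)) := fun τ hτ => by
    simp only [hFdef, dif_pos hτ]
    exact ((hlp2 τ hτ).const_add _).sub (tendsto_finsetSum _ fun k _ => hlq2 τ hτ k)
  choose av Kv hav hKv hwc using fun k => well_cond (hγ k).1.le (hγ k).2
  set S := (∑ k, 1 / av k) / 2
  have hS : 0 ≤ S := div_nonneg (Finset.sum_nonneg fun k _ => (one_div_pos.2 (hav k)).le) zero_le_two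
  set e : ℕ → ℝ := fun N => (|t0| + ∑ k, c k) * (K * (2 * (1 / 2 : ℝ) ^ N))
  have he : Tendsto e atTop (𝓝 0) := by
    simpa [e] using (((tendsto_pow_atTop_nhds_zero_of_lt_one (show (0 : ℝ) ≤ 1 / 2 by norm_num)
      (by norm_num)).const_mul 2).const_mul (K : ℝ)).const_mul (|t0| + ∑ k, c k)
  set E : ℕ → ℝ := fun N => ∫ U, pr β (stepSpec μ a h (n + 1) N) U ∂law N
  have hclose : ∀ τ, 0 < τ → ∀ N, 0 < N → |X τ N - E N| ≤ S / τ + e N := fun τ hτ N hN => by
    have := hp N
    have hN' : (0 : ℝ) < N := by exact_mod_cast hN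
    set m : Fin K → ℕ := fun k => ⌊γ k * (N : ℝ)⌋₊
    have hm1 : ∀ k, (m k : ℝ) ≤ γ k * N := fun k => Nat.floor_le (mul_nonneg (hγ k).1.le hN'.le)
    choose B hBm hBp hBw using fun k => hwc k N (m k) hN (hm1 k)
    have hBu : (gs (N * N)).real (⋃ k, B k) ≤ K * (2 * (1 / 2 : ℝ) ^ N) :=
      (measureReal_iUnion_fintype_le _).trans ((Finset.sum_le_sum fun k _ => hBp k).trans_eq (by simp [K]))
    have hcl := nest_close hN (hlaw N) hτ hc
      (fun k => (Nat.floor_le_of_le (mul_le_of_le_one_left hN'.le (hγ k).2.le) : m k ≤ N))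
      (t0 := t0) (lam := stepSpec μ a h (n + 1) N) (stepSpec_active μ a b β n N) hav
      (MeasurableSet.iUnion hBm) (fun g hg k => hBw k g fun hk => hg (Set.mem_iUnion.2 ⟨k, hk⟩))
    rw [integral_nest hN hτ t0 hc γ] at hcl
    refine hcl.trans (add_le_add (le_of_eq ?_) (mul_le_mul_of_nonneg_left hBu
      (add_nonneg (abs_nonneg _) (Finset.sum_nonneg fun k _ => (hc k).le))))
    simp only [S]
    rw [Finset.sum_div, Finset.sum_div, Finset.sum_div]
    exact Finset.sum_congr rfl fun k _ => by field_simp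
  have hdiff : ∀ τ τ', 0 < τ → 0 < τ' → |F τ - F τ'| ≤ S / τ + S / τ' := fun τ τ' h1 h2 => by
    refine le_of_tendsto_of_tendsto ((hX τ h1).sub (hX τ' h2)).abs
      (by simpa using (he.const_mul 2).const_add (S / τ + S / τ')) ?_
    filter_upwards [eventually_gt_atTop 0] with N hN
    have a1 := abs_le.1 (hclose τ h1 N hN)
    have a2 := abs_le.1 (hclose τ' h2 N hN)
    exact abs_le.2 ⟨by linarith, by linarith⟩
  have hsmall : Tendsto (fun τ : ℝ => S / τ) atTop (𝓝 0) := tendsto_const_nhds.div_atTop tendsto_id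
  obtain ⟨Ln, hLn⟩ : ∃ Ln, Tendsto F atTop (𝓝 Ln) := by
    refine cauchy_map_iff_exists_tendsto.1 (Metric.cauchy_iff.2 ⟨inferInstance, fun ε hε => ?_⟩)
    refine ⟨F '' {τ | 0 < τ ∧ S / τ < ε / 2}, image_mem_map ((eventually_gt_atTop 0).and
      (hsmall.eventually (gt_mem_nhds (half_pos hε)))), ?_⟩
    rintro _ ⟨τ, ⟨h1, h2⟩, rfl⟩ _ ⟨τ', ⟨h1', h2'⟩, rfl⟩
    rw [Real.dist_eq]
    linarith [hdiff τ τ' h1 h1']
  refine ⟨F, Ln, hpsi, hLn, ?_⟩
  have hn : b ≤ a + (n + 1 : ℕ) * h := by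
    simp only [h, mesh]
    push_cast
    rw [mul_div_cancel₀ _ (by positivity)]
    linarith
  have hbound : ∀ τ, 0 < τ → |F τ - L| ≤ S / τ + β / 2 * h := fun τ hτ => by
    refine le_of_tendsto_of_tendsto ((hX τ hτ).sub hL).abs
      (by simpa using he.const_add (S / τ + β / 2 * h)) ?_
    filter_upwards [eventually_gt_atTop 0] with N hN
    have := hp N
    have hgood : ∀ᵐ U ∂law N, Good U := (hlaw N).1.mono fun U hU => good_of_orth hU
    have hstep : |∫ U, pr β (stepSpec μ a h (n + 1) N) U ∂law N - ∫ U, pr β (refSpec μ N) U ∂law N|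
        ≤ β / 2 * h := by
      rw [← integral_sub (integrable_pr hgood hN _) (integrable_pr hgood hN _), ← Real.norm_eq_abs]
      refine (norm_integral_le_of_norm_le_const (C := β / 2 * h)
        (hgood.mono fun U hU => ?_)).trans_eq (by simp)
      rw [Real.norm_eq_abs]
      exact abs_pr_sub_le hN hU hβ.le fun j => stepSpec_close hμ hh.le hn j
    have a1 := abs_le.1 (hclose τ hτ N hN)
    have a2 := abs_le.1 hstep
    exact abs_le.2 ⟨by linarith, by linarith⟩
  refine le_of_tendsto_of_tendsto (hLn.sub_const L).abs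
    (by simpa using hsmall.add_const (β / 2 * h)) ?_
  exact (eventually_gt_atTop 0).mono fun τ hτ => hbound τ hτ

/-- The pressure tends to the limit of the variational values of the grids. -/
theorem limit_formula (hF : FreeFormula) (hμ : ∀ᵐ x ∂μ, x ∈ Set.Icc a b)
    (he : ∀ η, 0 < η → 0 < μ (Set.Ioi (b - η))) (hβ : 0 < β) :
    ∃ (L : ℝ) (Ln : ℕ → ℝ) (F : ℕ → ℝ → ℝ),
      (∀ n τ, 0 < τ → Tendsto (psi μ a b β n τ) atTop (𝓝 (F n τ))) ∧
      (∀ n, Tendsto (F n) atTop (𝓝 (Ln n))) ∧ Tendsto Ln atTop (𝓝 L) ∧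
      ∀ (law : ∀ N : ℕ, Measure (Fin N → Fin N → ℝ)),
        (∀ N, IsProbabilityMeasure (law N)) → (∀ N, LeftInv (law N)) →
        ∀ (R : ℝ) (lam : ∀ N : ℕ, Fin N → ℝ), Spec μ b R lam →
          Tendsto (fun N => ∫ U, (pr β (lam N) U - L) ^ 2 ∂law N) atTop (𝓝 0) := by
  obtain ⟨L, hmain⟩ := limit_of_engine (engineLimit_of_formula hF) μ hμ he hβ.le
  choose law hp hlaw using exists_leftInv
  have hsq := hmain law hp hlaw (-a) _ (refSpec_admissible hμ)
  have hL : Tendsto (fun N => ∫ U, pr β (refSpec μ N) U ∂law N) atTop (𝓝 L) := by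
    refine tendsto_sub_nhds_zero_iff.1 (squeeze_zero_norm' ?_ (by simpa using hsq.sqrt))
    filter_upwards [eventually_gt_atTop 0] with N hN
    have := hp N
    have hgood : ∀ᵐ U ∂law N, Good U := (hlaw N).1.mono fun U hU => good_of_orth hU
    have i1 := integrable_pr (β := β) hgood hN (refSpec μ N)
    rw [Real.norm_eq_abs]
    refine Real.abs_le_sqrt ?_
    have i2 : Integrable (fun U => (pr β (refSpec μ N) U - L) ^ 2) (law N) :=
      Integrable.of_bound (((measurable_pr (refSpec μ N)).sub_const L).pow_const 2).aestronglyMeasurable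
        ((|β| / 2 * (∑ i, |refSpec μ N i|) + |L|) ^ 2) (hgood.mono fun U hU => by
          rw [Real.norm_eq_abs, abs_pow]
          exact pow_le_pow_left₀ (abs_nonneg _) ((abs_sub _ _).trans (add_le_add (abs_pr_le hN hU
            fun i => single_le_sum (f := fun j => |refSpec μ N j|) (fun j _ => abs_nonneg _)
              (mem_univ i)) le_rfl)) 2)
    have hJ := (even_two.convexOn_pow (𝕜 := ℝ)).map_integral_le (μ := law N)
      (f := fun U => pr β (refSpec μ N) U - L) (by fun_prop) isClosed_univ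
      (ae_of_all _ fun _ => Set.mem_univ _) (i1.sub' (integrable_const _)) i2
    rw [integral_sub i1 (integrable_const _)] at hJ
    simpa using hJ
  choose F Ln hpsi hF' hb using fun n => grid_limit hF hμ hβ hp hlaw hL n
  refine ⟨L, Ln, F, hpsi, hF', ?_, hmain⟩
  refine tendsto_sub_nhds_zero_iff.1 (squeeze_zero_norm (fun n => hb n) ?_)
  have h1 : Tendsto (fun n : ℕ => mesh a b n) atTop (𝓝 0) := by
    simpa [mesh, div_eq_mul_inv] using
      (tendsto_one_div_add_atTop_nhds_zero_nat (𝕜 := ℝ)).const_mul (b - a + 1)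
  simpa using h1.const_mul (β / 2)

end Vale.Agent.P166.Main
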